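import Crest.Agent.R241.N1
import Crest.Agent.R241.Core3

/-!
# Block H: the filling theorem and the equality case.  Helper prefix `fill_`.
See `notes241/R241.md`, section H.
-/

open MeasureTheory Set Filter Topology
open Crest.GeometryTopology.MetricCurrent
open Crest.GeometryTopology.Submanifold (Euc unitBallVol unitSphereArea)
open scoped ENNReal NNReal InnerProductSpace

noncomputable section

namespace Crest.Agent.R241

universe u

variable {X : Type u} [MetricSpace X] [CompactSpace X] [MeasurableSpace X] [BorelSpace X] {σ : ℝ}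

/-- `exists_lim`, `V.M = A` (`Conv` with `G = 1`), `VS.lt_sq`, `core_one`/`core_two`/`core_three`,
`VS.exists_center`. -/
theorem near_concl (hσ : 0 ≤ σ) (H : Hyp σ X) (m : ℕ) (hfill : m ≠ 0 → Fill σ X m)
    {P : ℝ → ℝ} {Λ A : ℝ} {c : ℕ → Ch X (m + 1)} (h : NearMin P Λ A c) :
    σ < (Λ / (m + 1 : ℕ)) ^ 2 ∧ sph (m + 1) ≤ A * √((Λ / (m + 1 : ℕ)) ^ 2 - σ) ^ (m + 1) ∧
      (σ = 0 → A * (Λ / (m + 1 : ℕ)) ^ (m + 1) ≤ sph (m + 1) →
        ∃ (φ : ℕ → ℕ) (x₀ : X), StrictMono φ ∧ Conc (fun j => c (φ j)) x₀ ((m + 1 : ℕ) / Λ)) := by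
  obtain ⟨φ, Ω, _, _, V, hφ, hV⟩ := exists_lim hσ H m hfill h
  have x : X := (c 0).φ 0 0
  have hM : V.M = A := by
    have h1 := hV x (fun _ => 1) continuous_const
    simp only [integral_const, smul_eq_mul, mul_one] at h1
    exact tendsto_nhds_unique h1 (h.subseq hφ).area
  have hM0 : 0 < V.M := hM ▸ h.A_pos
  have hc : CoreConcl V := by
    rcases m with _ | _ | m
    · exact core_one hσ H (h.subseq hφ) V hV
    · exact V.core_two hσ h.Λ_pos hM0
    · exact V.core_three hσ H h.Λ_pos (by omega) hM0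
  refine ⟨V.lt_sq hσ h.Λ_pos m.succ_ne_zero hM0, hM ▸ hc.1, ?_⟩
  rintro rfl h1
  obtain ⟨x₀, hx⟩ := V.exists_center H h.Λ_pos m.succ_ne_zero hM0 (hc.2 rfl (hM ▸ h1))
  refine ⟨φ, x₀, hφ, fun g hg h0 => ?_⟩
  have h2 := hV x (fun q => g q.1) (hg.comp continuous_fst)
  rwa [integral_congr_ae (hx.mono fun o ho => h0 _ ho), integral_zero] at h2

omit [MeasurableSpace X] [BorelSpace X] in
theorem fill_cone (H : Hyp 0 X) (x : X) (k : ℕ) : ∃ D : ℝ, ∀ c : Ch X k, c.IsCyc → ∀ η > 0,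
    ∃ S : Ch X (k + 1), IsBd S c ∧ S.area ≤ D * c.area + η := by
  obtain ⟨C, hC⟩ := exists_cone H x k
  refine ⟨Metric.diam (univ : Set X), fun c hc η hη => ?_⟩
  obtain ⟨S, h1, -, h2⟩ := hC c hc η hη
  refine ⟨S, h1, h2.trans (add_le_add_left ?_ _)⟩
  have h3 : ∫ w, dist (c.pt w) x ∂c.par ≤ Metric.diam (univ : Set X) * c.area := by
    have := integral_mono (c.integrable_comp_pt (f := fun y => dist y x) (by fun_prop))
      (integrable_const (Metric.diam (univ : Set X)))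
      fun w => Metric.dist_le_diam_of_mem isCompact_univ.isBounded (mem_univ _) (mem_univ _)
    rwa [integral_const, smul_eq_mul, mul_comm] at this
  refine le_trans (div_le_self (integral_nonneg fun w => dist_nonneg) ?_) h3
  linarith [k.cast_nonneg (α := ℝ)]

theorem fill_contra (hσ : 0 ≤ σ) {n : ℕ} (hn : n ≠ 0) {A γ : ℝ} (hA : 0 < A) (hγ : 0 < γ)
    (h0 : σ < (((1 + γ) * psi σ n A)⁻¹ / n) ^ 2) :
    A * √((((1 + γ) * psi σ n A)⁻¹ / n) ^ 2 - σ) ^ n < sph n := by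
  have hp := psi_pos hσ hn hA
  have hn' : (0 : ℝ) < n := by exact_mod_cast Nat.pos_of_ne_zero hn
  have hs : 0 < sph n / A := div_pos (sph_pos n) hA
  have h1 : (((1 + γ) * psi σ n A)⁻¹ / n) ^ 2 - σ < (sph n / A) ^ (2 / (n : ℝ)) := by
    rw [← psi_inv_sq hσ hn hA]
    have : ((1 + γ) * psi σ n A)⁻¹ < (psi σ n A)⁻¹ := inv_strictAnti₀ hp (by nlinarith)
    gcongr
  have h2 : √((sph n / A) ^ (2 / (n : ℝ))) ^ n = sph n / A := by
    rw [Real.sqrt_eq_rpow, ← Real.rpow_mul hs.le, ← Real.rpow_natCast, ← Real.rpow_mul hs.le]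
    rw [show 2 / (n : ℝ) * (1 / 2) * n = 1 by field_simp, Real.rpow_one]
  have h3 := pow_lt_pow_left₀ (Real.sqrt_lt_sqrt (sub_pos.2 h0).le h1) (Real.sqrt_nonneg _) hn
  rw [h2, lt_div_iff₀ hA] at h3
  linarith

theorem fill_step (hσ : 0 ≤ σ) (H : Hyp σ X) (m : ℕ) (hfill : m ≠ 0 → Fill σ X m) :
    Fill σ X (m + 1) := by
  intro c₀ hc₀ η hη
  have hn : m + 1 ≠ 0 := m.succ_ne_zero
  set x : X := c₀.φ 0 0
  have Ψ0 := Psi_nonneg hσ hn c₀.area_nonneg
  set γ : ℝ := η / (4 * (Psi σ (m + 1) c₀.area + 1)) with hγ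
  have γ0 : 0 < γ := by positivity
  have γ1 : γ * Psi σ (m + 1) c₀.area ≤ η / 4 := by
    rw [hγ, div_mul_eq_mul_div, div_le_div_iff₀ (by positivity) (by norm_num)]
    nlinarith
  set P : ℝ → ℝ := fun a => (1 + γ) * Psi σ (m + 1) a with hP
  have Pm : MonotoneOn P (Ici 0) := fun a ha b hb hab =>
    mul_le_mul_of_nonneg_left ((strictMonoOn_Psi hσ hn).monotoneOn ha hb hab) (by positivity)
  have Pc : ContinuousOn P (Ici 0) := continuousOn_const.mul (continuousOn_Psi hσ hn)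
  have P0 : ∀ a, 0 ≤ a → 0 ≤ P a := fun a ha => mul_nonneg (by positivity) (Psi_nonneg hσ hn ha)
  set T : Set ℝ := {v | ∃ c S, Homol c₀ c S ∧ v = S.area + P c.area} with hT
  have Tb : BddBelow T := ⟨0, by
    rintro _ ⟨c, S, -, rfl⟩
    exact add_nonneg S.area_nonneg (P0 _ c.area_nonneg)⟩
  have hI : ∀ c S, Homol c₀ c S → sInf T ≤ S.area + P c.area := fun c S h => csInf_le Tb ⟨c, S, h, rfl⟩
  have hI0 : sInf T ≤ P c₀.area := by simpa [Ch.area_zero] using hI _ _ (homol_refl c₀ x)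
  have hex : ∀ j : ℕ, ∃ c S, Homol c₀ c S ∧ c.area ≤ c₀.area ∧
      S.area + P c.area ≤ sInf T + 1 / ((j : ℝ) + 1) := by
    intro j
    obtain ⟨_, ⟨c, S, h, rfl⟩, hv⟩ := Real.lt_sInf_add_pos (s := T) ⟨_, c₀, _, homol_refl c₀ x, rfl⟩
      (show 0 < 1 / ((j : ℝ) + 1) by positivity)
    rcases le_total c.area c₀.area with h1 | h1
    · exact ⟨c, S, h, h1, hv.le⟩
    · refine ⟨c₀, _, homol_refl c₀ x, le_rfl, ?_⟩
      have := Pm c₀.area_nonneg c.area_nonneg h1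
      rw [Ch.area_zero]
      linarith [S.area_nonneg]
  choose c S hh ha hv using hex
  obtain ⟨A, hA, φ, hφ, tA⟩ := (isCompact_Icc (a := (0 : ℝ)) (b := c₀.area)).tendsto_subseq
    (x := fun j => (c j).area) fun j => ⟨(c j).area_nonneg, ha j⟩
  have te : Tendsto (fun j => 1 / ((φ j : ℝ) + 1)) atTop (𝓝 0) :=
    tendsto_one_div_add_atTop_nhds_zero_nat.comp hφ.tendsto_atTop
  rcases hA.1.eq_or_lt with h0 | h0
  · obtain ⟨D, hD⟩ := fill_cone (H.zero hσ) x (m + 1)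
    have t1 : Tendsto (fun j => D * (c (φ j)).area) atTop (𝓝 0) := by
      have := tA.const_mul D
      rwa [← h0, mul_zero] at this
    have η4 : 0 < η / 4 := by positivity
    obtain ⟨j, h1, h2⟩ := ((t1.eventually (gt_mem_nhds η4)).and (te.eventually (gt_mem_nhds η4))).exists
    obtain ⟨S', b1, b2⟩ := hD _ ((hh (φ j)).isCyc hc₀) _ η4
    obtain ⟨S'', b3, b4⟩ := (hh (φ j)).fill b1
    refine ⟨S'', b3, ?_⟩
    have h3 := hv (φ j)
    have h4 := P0 _ (c (φ j)).area_nonneg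
    have h5 : P c₀.area = Psi σ (m + 1) c₀.area + γ * Psi σ (m + 1) c₀.area := by simp only [hP]; ring
    linarith
  · exfalso
    have hp := psi_pos hσ hn h0
    have hΨ : 0 < Psi σ (m + 1) A := by
      have := strictMonoOn_Psi hσ hn self_mem_Ici hA.1 h0
      rwa [Psi_zero] at this
    have hN : NearMin P ((1 + γ) * psi σ (m + 1) A)⁻¹ A fun j => c (φ j) := by
      refine ⟨by positivity, h0, Pm, Pc, ?_, ⟨(1 + γ) * (Psi σ (m + 1) A / A), by positivity, fun a ha => ?_⟩,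
        fun j => (hh _).isCyc hc₀, tA, fun ε hε => ?_⟩
      · rw [inv_inv]; exact (hasDerivAt_Psi hσ hn h0).const_mul _
      · have := mul_le_mul_of_nonneg_left (Psi_slope hσ hn h0 a ha) (show 0 ≤ 1 + γ by positivity)
        simp only [hP]
        linarith
      · have tP : Tendsto (fun j => P (c (φ j)).area) atTop (𝓝 (P A)) :=
          (Pc.continuousAt (Ici_mem_nhds h0)).tendsto.comp tA
        filter_upwards [tP.eventually (lt_mem_nhds (show P A - ε / 2 < P A by linarith)),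
          te.eventually (gt_mem_nhds (half_pos hε))] with j h1 h2 c' R hR
        obtain ⟨S', b1, b2⟩ := (hh (φ j)).trans hR
        have h3 := hI _ _ b1
        have h4 := hv (φ j)
        linarith
    obtain ⟨k1, k2, -⟩ := near_concl hσ H m hfill hN
    exact absurd k2 (not_le.2 (fill_contra hσ hn h0 γ0 k1))

theorem fill (hσ : 0 ≤ σ) (H : Hyp σ X) : ∀ m : ℕ, Fill σ X (m + 1)
  | 0 => fill_step hσ H 0 fun h => absurd rfl h
  | m + 1 => fill_step hσ H (m + 1) fun _ => fill hσ H m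

/-- cycles whose fillings are asymptotically no better than the Euclidean bound concentrate on a
sphere: they are near-minimisers for `P = Psi 0 n`, `Λ = (psi 0 n A)⁻¹` (`Homol.isCyc`, `fill`,
`Homol.fill`), `n / Λ = (A / s_n) ^ (1/n)` by `psi_inv_sq`. -/
theorem conc_of_tight (H : Hyp 0 X) (m : ℕ) {A : ℝ} (hA : 0 < A) {c : ℕ → Ch X (m + 1)}
    (hc : ∀ j, (c j).IsCyc) (ha : Tendsto (fun j => (c j).area) atTop (𝓝 A))
    (ht : ∀ η > 0, ∀ᶠ j in atTop, ∀ S, IsBd S (c j) → Psi 0 (m + 1) A ≤ S.area + η) :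
    ∃ (φ : ℕ → ℕ) (x₀ : X), StrictMono φ ∧
      Conc (fun j => c (φ j)) x₀ ((A / sph (m + 1)) ^ (1 / ((m + 1 : ℕ) : ℝ))) := by
  have hn := m.succ_ne_zero
  have hp := psi_pos le_rfl hn hA
  have hs := sph_pos (m + 1)
  have hN : NearMin (Psi 0 (m + 1)) (psi 0 (m + 1) A)⁻¹ A c := by
    refine ⟨inv_pos.2 hp, hA, (strictMonoOn_Psi le_rfl hn).monotoneOn, continuousOn_Psi le_rfl hn,
      by rw [inv_inv]; exact hasDerivAt_Psi le_rfl hn hA, ⟨_, div_pos ?_ hA, Psi_slope le_rfl hn hA⟩, hc, ha,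
      fun η hη => (ht _ (half_pos hη)).mono fun j hj c' R hR => ?_⟩
    · exact (Psi_nonneg le_rfl hn le_rfl).trans_lt (strictMonoOn_Psi le_rfl hn self_mem_Ici hA.le hA)
    · obtain ⟨S, h1, h2⟩ := fill le_rfl H m c' (hR.isCyc (hc j)) _ (half_pos hη)
      obtain ⟨S', h3, h4⟩ := hR.fill h1
      linarith [hj S' h3]
  have e : (psi 0 (m + 1) A)⁻¹ / (m + 1 : ℕ) = (sph (m + 1) / A) ^ (1 / ((m + 1 : ℕ) : ℝ)) := by
    rw [← sq_eq_sq₀ (by positivity) (by positivity), ← sub_zero (_ ^ 2), psi_inv_sq le_rfl hn hA,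
      ← Real.rpow_natCast, ← Real.rpow_mul (by positivity)]
    congr 1
    push_cast
    ring
  obtain ⟨φ, x₀, hφ, h⟩ := (near_concl le_rfl H m (fun h => by
    obtain ⟨k, rfl⟩ := Nat.exists_eq_succ_of_ne_zero h
    exact fill le_rfl H k) hN).2.2 rfl (by
      rw [e, one_div, Real.rpow_inv_natCast_pow (by positivity) hn, mul_div_cancel₀ _ hA.ne'])
  rw [← inv_div, e, ← Real.inv_rpow (by positivity), inv_div] at h
  exact ⟨φ, x₀, hφ, h⟩

end Crest.Agent.R241
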