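import Crest.Agent.R241.HypA
import Crest.Agent.R241.Geo.Met

/-!
# Block I: Riemannian geometry of `S`.  Owner file; helpers in `R241/Geo/*`.
See `notes241/R241.md`, section I.
-/

open MeasureTheory Set Filter Topology
open Crest.GeometryTopology.MetricCurrent
open Crest.GeometryTopology.Submanifold (Euc unitBallVol unitSphereArea)
open scoped ENNReal NNReal InnerProductSpace

noncomputable section

namespace Crest.Agent.R241

universe u

open Crest.GeometryTopology.Submanifold in
theorem exists_geo (d N : ℕ) (κ : ℝ) (hκ : κ ≤ 0) (S : Set (Euc N))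
    (hS : IsSubmanifold d N S) (hclosed : IsClosed S) (hconn : IsConnected S)
    (hsc : SimplyConnectedSpace S)
    (hsec : ∀ p ∈ S, ∀ (f : Euc d → Euc N) (V : Set (Euc d)), IsLocalParam d N S p f V →
      ∀ u v : Euc d, secNum f 0 u v ≤ κ * gramDet f 0 u v) :
    ∃ (X : Type) (_ : MetricSpace X) (j : X → Euc N), Geo (-κ) d S X j := by
  obtain ⟨P, hP⟩ := RG.exists_TP hS hclosed
  have hσ : 0 ≤ -κ := neg_nonneg.2 hκ
  obtain ⟨F, G, h⟩ := RG.exists_atl hσ hP (hP.sec (by simpa only [neg_neg] using hsec)) hclosed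
    hconn hsc
  exact RG.geo_of_atl hσ h hconn.nonempty

end Crest.Agent.R241
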