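import Crest.Agent.R241.NL
import Crest.Agent.R241.HypA
import Crest.Agent.R241.Hom.Sweep

/-!
# Block C: cones and radial deformations.  Owner file; helpers in `R241/Hom/*`.
See `notes241/R241.md`, section C.
-/

open MeasureTheory Set Filter Topology
open Crest.GeometryTopology.MetricCurrent
open Crest.GeometryTopology.Submanifold (Euc unitBallVol unitSphereArea)
open scoped ENNReal NNReal InnerProductSpace

noncomputable section

namespace Crest.Agent.R241

universe u

variable {X : Type u} [MetricSpace X] [CompactSpace X] {k : ℕ} {σ : ℝ}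

/-- the geodesic cone from `x`; its current depends only on the current of `c` -/
theorem exists_cone (H : Hyp 0 X) (x : X) (k : ℕ) :
    ∃ C : Functional X k → Functional X (k + 1), ∀ c : Ch X k, c.IsCyc → ∀ η > 0,
      ∃ S : Ch X (k + 1), IsBd S c ∧ S.cur = C c.cur ∧
        S.area ≤ (∫ w, dist (c.pt w) x ∂c.par) / (k + 1) + η := by
  classical
  choose g hg using H x
  have huv : ∀ s ∈ Icc (0 : ℝ) 1, ∀ y, (0 : ℝ) + s * dist x y ∈ Icc 0 (dist x y) := fun s hs y => by
    rw [zero_add]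
    exact ⟨mul_nonneg hs.1 dist_nonneg, mul_le_of_le_one_left dist_nonneg hs.2⟩
  obtain ⟨K, hK⟩ := lipschitz_radial le_rfl hg (Y := unitInterval × X) LipschitzWith.prod_snd
    (a := fun p => 0 + p.1 * dist x p.2)
    ((Lip.const 0).add (lip_prod (α := fun s => s) ⟨1, LipschitzWith.id⟩ (Lip.dist_right x)))
    fun p => huv _ p.1.2 _
  refine ⟨fun T f π => if h : ∃ c : Ch X k, c.cur = T then if IsTestPair f π then
    h.choose.prod.act (fun p => f (g p.2 (0 + p.1 * dist x p.2)))
      (fun a p => π a (g p.2 (0 + p.1 * dist x p.2))) else 0 else 0, fun c hc η hη => ?_⟩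
  obtain ⟨S, hS, hA⟩ := exists_sweep le_rfl hg c (Lip.const 0) (Lip.dist_right x) huv
    (α := fun s => s ^ k) (continuous_pow k) (ρ := fun w => dist (c.pt w) x)
    (c.integrable_comp_pt (f := fun y => dist y x) (by fun_prop))
    (.of_forall fun w s hs => by
      have h1 : √(1 - ‖c.grad (fun y => dist x y) w‖ ^ 2) ≤ 1 :=
        Real.sqrt_le_one.2 (sub_le_self _ (sq_nonneg _))
      have h2 : (0 + s * dist x (c.pt w)) / dist x (c.pt w) ≤ s := by
        rw [zero_add]
        exact div_le_of_le_mul₀ dist_nonneg hs.1 le_rfl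
      have h3 : 0 ≤ (0 + s * dist x (c.pt w)) / dist x (c.pt w) :=
        div_nonneg (huv s hs _).1 dist_nonneg
      have h4 := hs.1
      rw [sn_zero_left, sn_zero_left, abs_of_nonneg dist_nonneg, dist_comm (c.pt w), mul_comm (s ^ k)]
      refine (mul_le_of_le_one_right (by positivity) h1).trans ?_
      gcongr) hη
  refine ⟨S, fun f π h => ?_, ?_, hA.trans_eq ?_⟩
  · have h' := isTestPair_iff.1 (isTestPair_cons h)
    rw [hS _ _ (isTestPair_cons h), hc.prod_bd fun a => (h'.2 a).comp hK]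
    simp only [Icc.coe_one, Icc.coe_zero, zero_add, one_mul, zero_mul, (hg _).last, (hg _).zero,
      Ch.actC, Fin.tail_def, Fin.cons_zero, Fin.cons_succ]
    have h0 := c.act_const_mul_left (f x) (fun _ => 1) fun a _ => π a x
    rw [hc _ fun a => Lip.const _] at h0
    simp only [mul_one, mul_zero] at h0
    rw [h0, sub_zero]
  · funext f π
    have h : ∃ c' : Ch X k, c'.cur = c.cur := ⟨c, rfl⟩
    simp only [dif_pos h, Ch.cur]
    split_ifs with ht
    · have h' := isTestPair_iff.1 ht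
      rw [hS _ _ ht]
      exact Ch.prod_act_congr h.choose_spec.symm (h'.1.comp hK) fun a => (h'.2 a).comp hK
    · rfl
  · rw [integral_pow]
    simp only [one_pow, ne_eq, Nat.add_eq_zero_iff, one_ne_zero, and_false, not_false_eq_true,
      zero_pow, sub_zero]
    ring

/-- the deformation `r ↦ r - t f sn r` towards `x` -/
theorem exists_deform (hσ : 0 ≤ σ) (H : Hyp σ X) (x : X) {f : X → ℝ} (hf : Lip f)
    (hf0 : ∀ y, 0 ≤ f y) (k : ℕ) :
    ∃ C t₀ : ℝ, 0 < t₀ ∧ ∀ t ∈ Ioo 0 t₀, ∀ c : Ch X k, c.IsCyc → ∀ η > 0,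
      ∃ (c' : Ch X k) (R : Ch X (k + 1)), Homol c c' R ∧
        c'.area ≤ c.area - t * (∫ w, (k * (1 + σ * kap σ x (c.pt w)) * f (c.pt w)
            + ⟪c.grad f w, c.grad (kap σ x) w⟫_ℝ) ∂c.par) + C * t ^ 2 * c.area + η ∧
        R.area ≤ t * (∫ w, f (c.pt w)
            * √(sn σ (dist x (c.pt w)) ^ 2 - ‖c.grad (kap σ x) w‖ ^ 2) ∂c.par) + η := by
  choose g hg using H x
  obtain ⟨L, hL⟩ := id hf
  obtain ⟨M₁, hM₁⟩ := (isCompact_range hf.continuous).bddAbove
  obtain ⟨M₂, hM₂⟩ := (isCompact_range (Lip.dist_right x).continuous).bddAbove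
  obtain ⟨C, t₀, ht₀, hC⟩ := end_est hσ (max L (max M₁ M₂)) k
  refine ⟨C, t₀, ht₀, fun t ht c hc η hη => ?_⟩
  have hC' := fun y => hC t ht (f y)
    ⟨hf0 y, (hM₁ ⟨y, rfl⟩).trans ((le_max_left _ _).trans (le_max_right _ _))⟩ (dist x y)
    ⟨dist_nonneg, (hM₂ ⟨y, rfl⟩).trans ((le_max_right _ _).trans (le_max_right _ _))⟩
  have hr := Lip.dist_right x
  have hsn : Lip fun y => sn σ (dist x y) := hr.contDiff_comp₁ ((contDiff_sn σ).of_le (by simp))
  have hv : Lip fun y => t * (f y * sn σ (dist x y)) := (hf.mul hsn).const_mul t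
  have hu := hr.sub hv
  have hv0 : ∀ y, 0 ≤ t * (f y * sn σ (dist x y)) := fun y =>
    mul_nonneg ht.1.le (mul_nonneg (hf0 y) (sn_nonneg hσ dist_nonneg))
  have hvr : ∀ y, t * (f y * sn σ (dist x y)) ≤ dist x y := fun y => by
    rw [← mul_assoc]; exact (hC' y).1
  have huv : ∀ s ∈ Icc (0 : ℝ) 1, ∀ y, dist x y - t * (f y * sn σ (dist x y))
      + s * (t * (f y * sn σ (dist x y))) ∈ Icc 0 (dist x y) := fun s hs y => by
    constructor <;> nlinarith [hv0 y, hvr y, hs.1, hs.2]
  have hκ : ∀ᵐ w ∂c.par, c.grad (kap σ x) w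
      = sn σ (dist x (c.pt w)) • c.grad (fun y => dist x y) w := by
    filter_upwards [c.grad_comp₁ hr (Φ := md σ) fun y => (hasDerivAt_md hσ _).differentiableAt]
      with w hw
    rw [← (hasDerivAt_md hσ _).deriv]
    exact hw
  have hξ := c.ae_norm_grad_le (u := fun y => dist x y) (LipschitzWith.dist_right x)
  have hF := c.ae_norm_grad_le hL
  obtain ⟨Lκ, hLκ⟩ := lip_kap hσ x
  have hi1 : Integrable (fun w => f (c.pt w)
      * √(sn σ (dist x (c.pt w)) ^ 2 - ‖c.grad (kap σ x) w‖ ^ 2)) c.par := by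
    refine (c.integrable_comp_pt (hf.mul hsn).continuous).mono ((c.aesm_comp_pt hf.continuous).mul
      (Real.continuous_sqrt.comp_aestronglyMeasurable (((c.aesm_comp_pt hsn.continuous).pow 2).sub
        ((c.aesm_grad (lip_kap hσ x)).norm.pow 2)))) (.of_forall fun w => ?_)
    rw [norm_mul, norm_mul, Real.norm_of_nonneg (Real.sqrt_nonneg _), Real.norm_eq_abs (sn _ _),
      ← Real.sqrt_sq_eq_abs]
    exact mul_le_mul_of_nonneg_left (Real.sqrt_le_sqrt (sub_le_self _ (sq_nonneg _))) (norm_nonneg _)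
  have hi2 : Integrable (fun w => k * (1 + σ * kap σ x (c.pt w)) * f (c.pt w)
      + ⟪c.grad f w, c.grad (kap σ x) w⟫_ℝ) c.par := by
    refine (c.integrable_comp_pt (f := fun y => k * (1 + σ * kap σ x y) * f y) ?_).add ?_
    · have := (lip_kap hσ x).continuous
      have := hf.continuous
      fun_prop
    · refine ((c.integrable_grad hf).norm.mul_const Lκ).mono'
        ((c.aesm_grad hf).inner (c.aesm_grad (lip_kap hσ x))) ?_
      filter_upwards [c.ae_norm_grad_le hLκ] with w hw
      exact (norm_inner_le_norm _ _).trans (mul_le_mul_of_nonneg_left hw (norm_nonneg _))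
  obtain ⟨R, hR, hRA⟩ := exists_sweep hσ hg c hu hv huv (α := fun _ => t) continuous_const hi1 (by
    filter_upwards [hκ, hξ] with w h1 h2 s hs
    have h3 := huv s hs (c.pt w)
    have h4 := sn_nonneg hσ (dist_nonneg (x := x) (y := c.pt w))
    have h5 : (sn σ (dist x (c.pt w) - t * (f (c.pt w) * sn σ (dist x (c.pt w)))
        + s * (t * (f (c.pt w) * sn σ (dist x (c.pt w))))) / sn σ (dist x (c.pt w))) ^ k ≤ 1 :=
      pow_le_one₀ (div_nonneg (sn_nonneg hσ h3.1) h4)
        (div_le_one_of_le₀ ((strictMono_sn hσ).monotone h3.2) h4)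
    have h6 : √(sn σ (dist x (c.pt w)) ^ 2 - ‖c.grad (kap σ x) w‖ ^ 2)
        = sn σ (dist x (c.pt w)) * √(1 - ‖c.grad (fun y => dist x y) w‖ ^ 2) := by
      rw [h1, norm_smul, Real.norm_of_nonneg h4, mul_pow, ← mul_one_sub,
        Real.sqrt_mul (sq_nonneg _), Real.sqrt_sq h4]
    rw [h6, abs_of_nonneg (hv0 _)]
    refine (mul_le_mul_of_nonneg_right (mul_le_of_le_one_right (hv0 _) h5)
      (Real.sqrt_nonneg _)).trans_eq (by ring)) hη
  have hi3 : Integrable (fun w => 1 - t * (k * (1 + σ * kap σ x (c.pt w)) * f (c.pt w)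
      + ⟪c.grad f w, c.grad (kap σ x) w⟫_ℝ)) c.par := (integrable_const 1).sub (hi2.const_mul t)
  have hu0 : ∀ y, dist x y - t * (f y * sn σ (dist x y)) ∈ Icc 0 (dist x y) := fun y =>
    ⟨sub_nonneg.2 (hvr y), sub_le_self _ (hv0 y)⟩
  obtain ⟨c', hc', hA⟩ := exists_end hσ hg c hu hu0
    (hi3.add (integrable_const (C * t ^ 2))) (by
      filter_upwards [hκ, hξ, hF, c.grad_sub hr hv, c.grad_const_mul t (hf.mul hsn),
        c.grad_mul hf hsn,
        c.grad_comp₁ hr (Φ := sn σ) fun y => (hasDerivAt_sn hσ _).differentiableAt]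
        with w h1 h2 h3 h4 h5 h6 h7
      have h8 := (hC' (c.pt w)).2 _ (c.grad f w) h2 (h3.trans (le_max_left _ _))
      have h9 : c.grad (fun y => dist x y - t * (f y * sn σ (dist x y))) w
          = (1 - t * f (c.pt w) * (1 + σ * md σ (dist x (c.pt w)))) • c.grad (fun y => dist x y) w
            - (t * sn σ (dist x (c.pt w))) • c.grad f w := by
        rw [h4, h5, h6, h7, (hasDerivAt_sn hσ _).deriv]
        module
      rw [Pi.add_apply, h1, h9, ← mul_assoc t]
      exact h8) hη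
  obtain ⟨K, hK⟩ := lipschitz_radial hσ hg (Y := unitInterval × X) LipschitzWith.prod_snd
    (a := fun p => dist x p.2 - t * (f p.2 * sn σ (dist x p.2))
      + p.1 * (t * (f p.2 * sn σ (dist x p.2))))
    ((hu.comp LipschitzWith.prod_snd).add (lip_prod (α := fun s => s) ⟨1, LipschitzWith.id⟩ hv))
    fun p => huv _ p.1.2 _
  refine ⟨c', R, fun f π h => ?_, hA.trans_eq ?_, hRA.trans_eq (by simp)⟩
  · have h' := isTestPair_iff.1 (isTestPair_cons h)
    rw [hR _ _ (isTestPair_cons h), hc.prod_bd fun a => (h'.2 a).comp hK, hc' _ _ h]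
    simp only [Icc.coe_one, Icc.coe_zero, add_zero, one_mul, zero_mul, sub_add_cancel, (hg _).last,
      Ch.actC, Fin.tail_def, Fin.cons_zero, Fin.cons_succ]
    ring
  · rw [integral_add' hi3 (integrable_const _),
      integral_sub (integrable_const _) (hi2.const_mul t), integral_const_mul]
    simp only [integral_const, smul_eq_mul, Ch.area]
    ring

end Crest.Agent.R241
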