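import Crest.Agent.R241.NL
import Crest.Agent.R241.HypA
import Crest.Agent.R241.KB.KD
import Crest.Agent.R241.KB.LB
import Crest.Agent.R241.KB.Ext

/-!
# Block E: integer rectifiable currents of a CAT(0) space are chains of almost the same mass.
Owner file; helpers in `R241/KB/*`.  See `notes241/R241.md`, section E.
-/

open MeasureTheory Set Filter Topology
open Crest.GeometryTopology.MetricCurrent
open Crest.GeometryTopology.Submanifold (Euc unitBallVol unitSphereArea)
open scoped ENNReal NNReal InnerProductSpace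

noncomputable section

namespace Crest.Agent.R241

universe u

variable {X : Type u} [MetricSpace X] [MeasurableSpace X] [BorelSpace X] [ProperSpace X] {k : ℕ}

omit [MeasurableSpace X] [BorelSpace X] [ProperSpace X] in
theorem kb_minJ {E : Set (Euc k)} {φ : Euc k → X} {C : ℝ} (hC0 : 0 < C)
    (hC : ∀ z ∈ E, ∀ w ∈ E, dist z w ≤ C * dist (φ z) (φ w)) {z : Euc k} (hz : z ∈ E)
    (A : Euc k →L[ℝ] Euc k) (h : ∀ ε > 0, ∀ᶠ z' in 𝓝[E] z,
      |dist (φ z') (φ z) - ‖A (z' - z)‖| ≤ ε * ‖z' - z‖) : MinJ E φ z |A.det| := by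
  intro δ hδ
  have hcont : Continuous fun t : ℝ => |((1 - t) • A).det| :=
    (ContinuousLinearMap.continuous_det.comp (by fun_prop)).abs
  have h1 := hcont.tendsto 0
  simp only [sub_zero, one_smul] at h1
  obtain ⟨t, ht1, ht2⟩ := (((tendsto_order.1 (h1.mono_left (nhdsWithin_le_nhds (s := Ioi 0)))).1
    (|A.det| - δ) (by linarith)).and (Ioo_mem_nhdsGT one_pos)).exists
  refine ⟨(1 - t) • A, ht1.le, ?_⟩
  filter_upwards [h (t / C) (div_pos ht2.1 hC0), self_mem_nhdsWithin] with z' h2 hz'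
  have h3 : ‖z' - z‖ ≤ C * dist (φ z') (φ z) := by rw [← dist_eq_norm]; exact hC _ hz' _ hz
  have h4 : t / C * ‖z' - z‖ ≤ t * dist (φ z') (φ z) := by
    have := ht2.1
    calc t / C * ‖z' - z‖ ≤ t / C * (C * dist (φ z') (φ z)) := by gcongr
      _ = _ := by field_simp
  have h5 := (abs_le.1 h2).1
  have h6 : ‖A (z' - z)‖ ≤ (1 + t) * dist (φ z') (φ z) := by linarith
  rw [show ((1 - t) • A) (z' - z) = (1 - t) • A (z' - z) from rfl, norm_smul, Real.norm_eq_abs,
    abs_of_pos (sub_pos.2 ht2.2)]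
  have h7 : (1 - t) * ‖A (z' - z)‖ ≤ (1 - t) * ((1 + t) * dist (φ z') (φ z)) := by
    have := sub_pos.2 ht2.2
    gcongr
  have h8 : 0 ≤ t * t * dist (φ z') (φ z) := mul_nonneg (mul_self_nonneg t) dist_nonneg
  nlinarith

omit [ProperSpace X] in
theorem Rep.ae_zero {T : Functional X k} {E φ θ} (h : Rep T E φ θ) (i : ℕ) {K : Set X}
    (hK : IsClosed K) (hTK : IsSupportedIn K T) :
    ∀ᵐ z ∂volume.restrict (E i), φ i z ∉ K → θ i z = 0 := by
  obtain ⟨L, hL⟩ := h.lip i
  obtain ⟨C, hC0, hC⟩ := h.colip i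
  have hA : MeasurableSet (E i ∩ φ i ⁻¹' Kᶜ) := by
    obtain ⟨U, hU, e⟩ := continuousOn_iff'.1 hL.continuousOn _ hK.isOpen_compl
    rw [inter_comm, e]
    exact hU.measurableSet.inter (h.meas i)
  set B : Euc k →L[ℝ] Euc k := C⁻¹ • ContinuousLinearMap.id ℝ (Euc k) with hB
  have hdet : 0 < |B.det| := by
    refine abs_pos.2 ?_
    have : B.det = C⁻¹ ^ k := by
      change LinearMap.det (C⁻¹ • (LinearMap.id : Euc k →ₗ[ℝ] Euc k)) = _
      rw [LinearMap.det_smul, LinearMap.det_id, finrank_euclideanSpace_fin, mul_one]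
    rw [this]
    positivity
  have h1 := lower_bound (h.meas i) (h.fin i) hA inter_subset_left hL hC (h.measθ i) (h.int i)
    (J := fun _ => |B.det|) measurable_const ?_ 0 fun P hP hPm π hπ => by
      rw [h.eq_zero i hK hTK hP hPm hπ]; simp
  · have hθr : Measurable fun z => (θ i z : ℝ) := (measurable_of_countable _).comp (h.measθ i)
    rw [Measure.coe_zero, Pi.zero_apply, nonpos_iff_eq_zero,
      lintegral_eq_zero_iff (hθr.abs.mul_const _).ennreal_ofReal] at h1
    rw [Filter.EventuallyEq, ae_restrict_iff' hA] at h1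
    filter_upwards [ae_restrict_of_ae h1, ae_restrict_mem (h.meas i)] with z hz hzE hzK
    have h2 := hz ⟨hzE, hzK⟩
    simp only [Pi.zero_apply, ENNReal.ofReal_eq_zero] at h2
    have h3 : |(θ i z : ℝ)| ≤ 0 := by
      by_contra hn
      exact absurd h2 (not_le.2 (mul_pos (not_le.1 hn) hdet))
    exact_mod_cast abs_nonpos_iff.1 h3
  · filter_upwards [ae_restrict_mem hA] with z hz δ hδ
    refine ⟨B, by linarith, ?_⟩
    filter_upwards [self_mem_nhdsWithin] with z' hz'
    rw [show B (z' - z) = C⁻¹ • (z' - z) from rfl, norm_smul, Real.norm_eq_abs,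
      abs_of_pos (inv_pos.2 hC0), inv_mul_le_iff₀ hC0, ← dist_eq_norm]
    exact hC _ hz' _ hz.1

/-- one chart -/
theorem Rep.exists_ch (H : Hyp 0 X) {T : Functional X k} (hT : IsCurrent T) {E φ θ}
    (h : Rep T E φ θ) (i : ℕ) {K : Set X} (hK : IsClosed K) (hTK : IsSupportedIn K T) {η : ℝ}
    (hη : 0 < η) : ∃ (c : Ch X k) (a : ℝ), 0 ≤ a ∧ c.area ≤ a + η ∧ c.In K ∧
      (∀ f π, IsTestPair f π → c.act f π = chartAction (E i) (φ i) (θ i) f π) ∧
      ∀ μ : Measure X, IsFiniteMeasure μ → Controls T μ → ENNReal.ofReal a ≤ μ (φ i '' E i) := by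
  classical
  obtain ⟨L, hL⟩ := h.lip i
  obtain ⟨C, hC0, hC⟩ := h.colip i
  obtain ⟨J, hJ, hJ0, hJa⟩ := exists_md H (h.meas i) hL
  have hθr : Measurable fun z => (θ i z : ℝ) := (measurable_of_countable _).comp (h.measθ i)
  have hlb : ∀ μ : Measure X, IsFiniteMeasure μ → Controls T μ →
      ∫⁻ z in E i, ENNReal.ofReal (|(θ i z : ℝ)| * J z) ≤ μ (φ i '' E i) := by
    intro μ hμ hc
    refine lower_bound (h.meas i) (h.fin i) (h.meas i) Subset.rfl hL hC (h.measθ i) (h.int i) hJ ?_ μ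
      fun P hP hPm π hπ => h.abs_le i hc hP hPm hπ
    filter_upwards [hJa, ae_restrict_mem (h.meas i)] with z ⟨A, hA, hA'⟩ hz
    rw [hA]
    exact kb_minJ hC0 hC hz A hA'
  have hnn : ∀ z, 0 ≤ |(θ i z : ℝ)| * J z := fun z => mul_nonneg (abs_nonneg _) (hJ0 z)
  have hint : IntegrableOn (fun z => |(θ i z : ℝ)| * J z) (E i) := by
    obtain ⟨μ, hμ, hc⟩ := hT.finite_mass
    refine ⟨(hθr.abs.mul hJ).aestronglyMeasurable, ?_⟩
    rw [hasFiniteIntegral_iff_ofReal (Eventually.of_forall hnn)]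
    exact (hlb μ hμ hc).trans_lt (measure_lt_top _ _)
  have hA : MeasurableSet (E i ∩ φ i ⁻¹' Kᶜ) := by
    obtain ⟨U, hU, e⟩ := continuousOn_iff'.1 hL.continuousOn _ hK.isOpen_compl
    rw [inter_comm, e]
    exact hU.measurableSet.inter (h.meas i)
  set θ' : Euc k → ℤ := (E i ∩ φ i ⁻¹' Kᶜ)ᶜ.indicator (θ i) with hθ'
  have hae : ∀ᵐ z ∂volume.restrict (E i), θ' z = θ i z := by
    filter_upwards [h.ae_zero i hK hTK] with z hz
    by_cases hm : z ∈ (E i ∩ φ i ⁻¹' Kᶜ)ᶜ
    · exact indicator_of_mem hm _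
    · rw [hθ', indicator_of_notMem hm, hz (not_not.1 hm).2]
  obtain ⟨c, hc1, hc2, hc3⟩ := exists_ch_of_majJ (h.meas i) hL (θ := θ')
    ((h.measθ i).indicator hA.compl) ((h.int i).congr (by
      filter_upwards [hae] with z hz
      rw [hz])) hJ.aemeasurable hJ0 (hint.congr (by
      filter_upwards [hae] with z hz
      rw [hz])) (by
      filter_upwards [hJa] with z ⟨A, hA, hA'⟩ _
      rw [hA, ← Real.sqrt_sq_eq_abs, ← det_gram]
      refine majJ_of_linear A fun ε hε => ?_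
      filter_upwards [hA' ε hε] with z' hz'
      linarith [(_root_.abs_le.1 hz').2]) hη
  refine ⟨c, ∫ z in E i, |(θ i z : ℝ)| * J z, integral_nonneg hnn, hc2.trans (le_of_eq ?_),
    hc3.mono ?_, fun f π hf => ?_, fun μ hμ hc => ?_⟩
  · congr 1
    refine integral_congr_ae ?_
    filter_upwards [hae] with z hz
    rw [hz]
  · rintro _ ⟨z, ⟨hz, hz'⟩, rfl⟩
    by_contra hn
    exact hz' (indicator_of_notMem (not_not.2 ⟨hz, hn⟩) _)
  · rw [hc1 f π hf]
    unfold chartAction
    rw [if_pos hf]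
    refine integral_congr_ae ?_
    filter_upwards [hae] with z hz
    rw [hz]
    rfl
  · rw [ofReal_integral_eq_lintegral_ofReal hint (Eventually.of_forall hnn)]
    exact hlb μ hμ hc

theorem exists_ch_of_rect (H : Hyp 0 X) {T : Functional X k} (hT : IsCurrent T)
    (hR : IsIntegerRectifiable T) {K : Set X} (hK : IsClosed K) (hTK : IsSupportedIn K T)
    {η : ℝ} (hη : 0 < η) : ∃ c : Ch X k, c.cur = T ∧ c.In K ∧ c.area ≤ mass T + η := by
  obtain ⟨E, φ, θ, h⟩ := exists_rep hR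
  haveI : Nonempty X := ⟨φ 0 0⟩
  choose c a ha0 hca hcK hact hμ using fun i : ℕ =>
    h.exists_ch H hT i hK hTK (η := η / 2 / 2 ^ i) (by positivity)
  have hmeas : ∀ i, MeasurableSet (φ i '' E i) := by
    intro i
    obtain ⟨L, hL⟩ := h.lip i
    obtain ⟨C, -, hC⟩ := h.colip i
    refine (h.meas i).image_of_continuousOn_injOn hL.continuousOn fun z hz w hw e => ?_
    have := hC z hz w hw
    rw [e, dist_self, mul_zero] at this
    exact dist_le_zero.1 this
  have hsum : ∀ μ : Measure X, IsFiniteMeasure μ → Controls T μ → ∀ s : Finset ℕ,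
      ∑ i ∈ s, a i ≤ (μ univ).toReal := by
    intro μ hf hc s
    rw [← ENNReal.ofReal_le_iff_le_toReal (measure_ne_top _ _),
      ENNReal.ofReal_sum_of_nonneg fun i _ => ha0 i]
    refine (Finset.sum_le_sum fun i _ => hμ i μ hf hc).trans ((ENNReal.sum_le_tsum s).trans ?_)
    rw [← measure_iUnion (fun i j hij => h.disj i j hij) hmeas]
    exact measure_mono (subset_univ _)
  obtain ⟨μ₀, h₀, h₀'⟩ := hT.finite_mass
  have hsa : Summable a := summable_of_sum_le ha0 (hsum μ₀ h₀ h₀')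
  have hmass : ∑' i, a i ≤ mass T := by
    refine le_csInf ⟨_, μ₀, h₀, h₀', rfl⟩ ?_
    rintro _ ⟨μ, hf, hc, rfl⟩
    exact hsa.tsum_le_of_sum_le (hsum μ hf hc)
  have hg := hasSum_geometric_two' η
  have hsc : Summable fun i => (c i).area :=
    Summable.of_nonneg_of_le (fun i => (c i).area_nonneg) hca (hsa.add hg.summable)
  obtain ⟨s, hs1, hs2, hs3⟩ := exists_sum c hsc
  refine ⟨s, ?_, hs3 K hcK, ?_⟩
  · funext f π
    unfold Ch.cur
    split_ifs with hf
    · rw [h.eq f π hf, ← (hs2 f π hf).tsum_eq]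
      exact tsum_congr fun i => hact i f π hf
    · exact (hT.eq_zero_of_not_test f π hf).symm
  · rw [hs1]
    refine (hsc.tsum_le_tsum hca (hsa.add hg.summable)).trans ?_
    rw [hsa.tsum_add hg.summable, hg.tsum_eq]
    linarith

end Crest.Agent.R241
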