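import Crest.Agent.R241.NL
import Crest.Agent.R241.Slice.Bd

/-!
# Block S: slicing.  Owner file; helpers in `R241/Slice/*`.  See `notes241/R241.md`, section S.
-/

open MeasureTheory Set Filter Topology
open Crest.GeometryTopology.MetricCurrent
open Crest.GeometryTopology.Submanifold (Euc unitBallVol unitSphereArea)
open scoped ENNReal NNReal InnerProductSpace

noncomputable section

namespace Crest.Agent.R241

universe u

variable {X : Type u} [MetricSpace X] [CompactSpace X] [MeasurableSpace X] [BorelSpace X] {k : ℕ}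

omit [CompactSpace X] in
theorem Lip.measurableSet_le {u : X → ℝ} (hu : Lip u) (t : ℝ) : MeasurableSet {y | u y ≤ t} :=
  (isClosed_le hu.continuous continuous_const).measurableSet

/-- `c` has no boundary in `{u < t₀}`; then for a.e. `t < t₀` the boundary of `c ⌞ {u ≤ t}` is a
chain in `{u = t}`, with the coarea bound. -/
theorem exists_slice (c : Ch X (k + 1)) {u : X → ℝ} (hu : Lip u) (t₀ : ℝ)
    (hc : ∀ π : Fin (k + 1) → X → ℝ, (∀ a, Lip (π a)) → (∀ y, t₀ ≤ u y → π 0 y = 0) →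
      c.act (fun _ => 1) π = 0) {ε : ℝ} (hε : 0 < ε) :
    ∃ b : ℝ → ℝ≥0∞, Measurable b ∧
      (∀ A : Set ℝ, MeasurableSet A → ∫⁻ t in A, b t
        ≤ ENNReal.ofReal (1 + ε) * ∫⁻ w in {w | u (c.pt w) ∈ A}, ‖c.grad u w‖ₑ ∂c.par) ∧
      ∀ᵐ t : ℝ, t < t₀ → ∃ sl : Ch X k, IsBd (c.restr {y | u y ≤ t} (hu.measurableSet_le t)) sl ∧
        ENNReal.ofReal sl.area ≤ b t ∧ sl.In {y | u y = t} := by
  obtain ⟨Q, ψ, s, h⟩ := exists_slFam c hu hε
  obtain ⟨D, hDc, hDl, hD⟩ := exists_countable_lip (X := X)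
  refine ⟨slB Q, h.measurable_slB, fun A hA => h.lintegral_slB hA, ?_⟩
  have h1 : ∀ᵐ t : ℝ, slB Q t < ⊤ := ae_lt_top h.measurable_slB (h.lintegral_slB_ne_top hu)
  have : Countable D := hDc.to_subtype
  have h2 : ∀ᵐ t : ℝ, ∀ p : D × (Fin k → D), t < t₀ →
      (c.restr {y | u y ≤ t} (hu.measurableSet_le t)).act (fun _ => 1)
        (Fin.cons p.1.1 fun a => (p.2 a).1) = slAct Q ψ s p.1.1 (fun a => (p.2 a).1) t :=
    ae_all_iff.2 fun p => h.bd hu hu.measurableSet_le t₀ hc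
      (isTestPair_iff.2 ⟨hDl _ p.1.2, fun a => hDl _ (p.2 a).2⟩)
  filter_upwards [h1, h2] with t h1 h2 ht
  obtain ⟨sl, ha, hb, hi⟩ := h.exists_ch h1.ne
  refine ⟨sl, sl_isBd_of_dense hD fun f hf π hπ => ?_, hb, hi⟩
  rw [ha f π (isTestPair_iff.2 ⟨hDl _ hf, fun a => hDl _ (hπ a)⟩)]
  exact h2 (⟨f, hf⟩, fun a => ⟨π a, hπ a⟩) ht

end Crest.Agent.R241
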