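import Crest.Agent.R241.Hom
import Crest.Agent.R241.Slice
import Crest.Agent.R241.Prof
import Crest.Agent.R241.Lim.Cpt
import Crest.Agent.R241.Lim.FV
import Crest.Agent.R241.Lim.Dens

/-!
# Block F: the limit of near-minimisers.  Owner file; helpers in `R241/Lim/*`.
See `notes241/R241.md`, section F.
-/

open MeasureTheory Set Filter Topology
open Crest.GeometryTopology.MetricCurrent
open Crest.GeometryTopology.Submanifold (Euc unitBallVol unitSphereArea)
open scoped ENNReal NNReal InnerProductSpace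

noncomputable section

namespace Crest.Agent.R241

universe u

variable {X : Type u} [MetricSpace X] [CompactSpace X] [MeasurableSpace X] [BorelSpace X] {σ : ℝ}

theorem exists_lim (hσ : 0 ≤ σ) (H : Hyp σ X) (m : ℕ) (hfill : m ≠ 0 → Fill σ X m)
    {P : ℝ → ℝ} {Λ A : ℝ} {c : ℕ → Ch X (m + 1)} (h : NearMin P Λ A c) :
    ∃ (φ : ℕ → ℕ) (Ω : Type u) (_ : MeasurableSpace Ω) (_ : StandardBorelSpace Ω)
      (V : VS σ Λ (m + 1) X Ω), StrictMono φ ∧ Conv (fun j => c (φ j)) V := by
  obtain ⟨C, hC⟩ := H.exists_lip_kap_sub hσ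
  obtain ⟨φ, ν, L, hφ, hν, hp, hξ, hlim⟩ := Lim.exists_weak_lim hσ hC c h.area
  have h' := h.subseq hφ
  have hcp := Lim.continuous_p (σ := σ) (n := m + 1) (X := X) C
  have hcξ := Lim.continuous_ξ (σ := σ) (n := m + 1) (X := X) C
  have hk : ∀ x : X, Continuous fun o : Lim.Om σ C (m + 1) X => kap σ x o.1.1 := fun x =>
    (lip_kap hσ x).continuous.comp hcp
  have hconv : ∀ (x : X) (G : X × Euc (m + 1) → ℝ), Continuous G →
      Tendsto (fun j => ∫ w, G ((c (φ j)).pt w, (c (φ j)).grad (kap σ x) w) ∂(c (φ j)).par) atTop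
        (𝓝 (∫ o, G (o.1.1, o.1.2 x) ∂ν)) := by
    intro x G hG
    refine (hlim (fun o => G (o.1.1, o.1.2 x)) (hG.comp (hcp.prodMk (hcξ x)))).congr fun j => ?_
    refine integral_congr_ae ?_
    filter_upwards [hp (φ j), hξ (φ j) x] with w h1 h2
    rw [h1, h2]
  refine ⟨φ, Lim.Om σ C (m + 1) X, inferInstance, inferInstance,
    { ν := ν
      fin := hν
      p := fun o => o.1.1
      ξ := fun o => o.1.2
      meas_p := hcp.measurable
      meas_ξ := fun x => (hcξ x).measurable
      lip_ξ := ⟨C, fun o => o.2.1⟩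
      bound := fun o => o.2.2
      fv := fun k xs Φ hΦ h0 x => ?_
      dens := Lim.dens_of_near hσ H hfill h' ν hcp.measurable fun g hg =>
        hconv ((c 0).φ 0 0) (fun q => g q.1) (hg.comp continuous_fst) }, hφ, hconv⟩
  have hf : Lip (gfun σ xs Φ) := Lip.contDiff_comp (fun i => lip_kap hσ (xs i)) hΦ
  have hfc : Continuous fun o : Lim.Om σ C (m + 1) X => gfun σ xs Φ o.1.1 := hf.continuous.comp hcp
  refine Lim.fv_seq hσ H h' x hf h0 ?_ (hconv x (fun q => gfun σ xs Φ q.1 *
    √(sn σ (dist x q.1) ^ 2 - ‖q.2‖ ^ 2)) ((hf.continuous.comp continuous_fst).mul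
      ((((continuous_sn σ).comp (continuous_const.dist continuous_fst)).pow 2).sub
        (continuous_snd.norm.pow 2)).sqrt))
  have hg : Continuous fun o : Lim.Om σ C (m + 1) X => gvec σ xs Φ o.1.1 o.1.2 := by
    refine continuous_finsetSum _ fun i _ => ?_
    exact (((hΦ.continuous_fderiv one_ne_zero).comp (continuous_pi fun i => hk (xs i))).clm_apply
      continuous_const).smul (hcξ (xs i))
  refine (hlim (fun o => ((m + 1 : ℕ) : ℝ) * (1 + σ * kap σ x o.1.1) * gfun σ xs Φ o.1.1 +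
    ⟪gvec σ xs Φ o.1.1 o.1.2, o.1.2 x⟫_ℝ) (((continuous_const.mul (continuous_const.add
      (continuous_const.mul (hk x)))).mul hfc).add (hg.inner (hcξ x)))).congr fun j => ?_
  refine integral_congr_ae ?_
  filter_upwards [hp (φ j), hξ (φ j) x, ae_all_iff.2 fun i => hξ (φ j) (xs i),
    (c (φ j)).grad_comp (fun i => lip_kap hσ (xs i)) (hΦ.differentiable one_ne_zero)] with w h1 h2 h3 h4
  have e : (c (φ j)).grad (gfun σ xs Φ) w = (c (φ j)).grad (fun y => Φ fun i => kap σ (xs i) y) w := rfl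
  rw [e, h4, h1, h2]
  simp only [gvec, h3]

end Crest.Agent.R241
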