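import Crest.Agent.R241.Calc
import Crest.Agent.R241.WC.NL

/-!
# (WC) weak continuity of Jacobian determinants.  Helper prefix `wc_`.

Recipe.  Extend `g j a`, `G a` by the McShane formula `inf_{w ∈ E} (g w + L |z - w|)` -- or prove
the statement by the subsequence principle: extend every `g j a` to an `L`-Lipschitz function on
`ℝᵏ`; a subsequence of the extensions converges locally uniformly (Arzelà–Ascoli/Tychonoff) to an
`L`-Lipschitz extension of `G a`.  Approximate `ρ · 1_E` in `L¹` by a smooth compactly supported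
`ψ` (Jacobians are bounded by `L ^ k`).  For such `ψ` replace the coordinates one at a time using
`∫ ψ det (D g₀, D g₁, …) = - ∫ g₀ det (D ψ, D g₁, …)` (null Lagrangian: `∫ det (D (ψ g₀), D g₁, …) = 0`
for Lipschitz functions, the first compactly supported; by mollification from the smooth case,
see `R174/NL.lean`, `R83/Lip.lean`, `R83/Wall.lean`), so that
`|∫ ψ det (D (g₀ - G₀), …)| ≤ sup_{supp ψ} |g₀ - G₀| · C`.
-/

open MeasureTheory Set Filter Topology
open Crest.GeometryTopology.MetricCurrent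
open Crest.GeometryTopology.Submanifold (Euc unitBallVol unitSphereArea)
open scoped ENNReal NNReal InnerProductSpace

noncomputable section

namespace Crest.Agent.R241

universe u

variable {k : ℕ}

/-- null Lagrangian for Lipschitz functions -/
theorem integral_det_eq_zero (g : Fin (k + 1) → Euc (k + 1) → ℝ) {L : ℝ≥0}
    (hg : ∀ a, LipschitzWith L (g a)) (a₀ : Fin (k + 1)) (h0 : HasCompactSupport (g a₀)) :
    ∫ z, jacE univ g z = 0 := by
  exact wc_nl g hg a₀ h0

theorem wcb_upd (g : Fin k → Euc k → ℝ) (a : Fin k) (u : Euc k → ℝ) (z : Euc k) :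
    jacE univ (Function.update g a u) z =
      ((Matrix.of fun a j => fderiv ℝ (g a) z (EuclideanSpace.single j 1)).updateRow a
        fun j => fderiv ℝ u z (EuclideanSpace.single j 1)).det := by
  unfold jacE
  congr 1
  ext b j
  by_cases h : b = a
  · subst h
    simp [fderivWithin_univ]
  · simp [Matrix.updateRow_ne h, Function.update_of_ne h, fderivWithin_univ]

theorem wcb_bd {g : Fin k → Euc k → ℝ} {L : ℝ≥0} (hg : ∀ a, LipschitzWith L (g a)) :
    ∀ᵐ z, ‖jacE univ g z‖ ≤ (L : ℝ) ^ k := by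
  have h := ae_abs_jacE_le MeasurableSet.univ (L := fun _ => L) fun a => (hg a).lipschitzOnWith
  simpa using h

theorem wcb_int {ρ : Euc k → ℝ} (hρ : Integrable ρ) {g : Fin k → Euc k → ℝ} {L : ℝ≥0}
    (hg : ∀ a, LipschitzWith L (g a)) : Integrable fun z => ρ z * jacE univ g z := by
  have h := aemeasurable_jacE MeasurableSet.univ (L := fun _ => L) fun a => (hg a).lipschitzOnWith
  rw [Measure.restrict_univ] at h
  exact hρ.mul_bdd h.aestronglyMeasurable (wcb_bd hg)

theorem wcb_le {ρ : Euc k → ℝ} (hρ : Integrable ρ) {g : Fin k → Euc k → ℝ} {L : ℝ≥0}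
    (hg : ∀ a, LipschitzWith L (g a)) :
    |∫ z, ρ z * jacE univ g z| ≤ (∫ z, ‖ρ z‖) * (L : ℝ) ^ k := by
  rw [← integral_mul_const, ← Real.norm_eq_abs]
  refine norm_integral_le_of_norm_le (hρ.norm.mul_const _) ?_
  filter_upwards [wcb_bd hg] with z hz
  rw [norm_mul]
  exact mul_le_mul_of_nonneg_left hz (norm_nonneg _)

theorem wcb_lip_upd {g : Fin k → Euc k → ℝ} {L : ℝ≥0} (hg : ∀ a, LipschitzWith L (g a)) (a : Fin k)
    {u : Euc k → ℝ} {M : ℝ≥0} (hu : LipschitzWith M u) (b : Fin k) :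
    LipschitzWith (max L M) (Function.update g a u b) := by
  by_cases h : b = a
  · subst h
    rw [Function.update_self]
    exact hu.weaken (le_max_right _ _)
  · rw [Function.update_of_ne h]
    exact (hg b).weaken (le_max_left _ _)

theorem wcb_mul {ψ w : Euc k → ℝ} {M N : ℝ≥0} (hψ : LipschitzWith M ψ) (hc : HasCompactSupport ψ)
    (hw : LipschitzWith N w) : ∃ C, LipschitzWith C fun z => ψ z * w z := by
  obtain ⟨A, hA⟩ := hc.exists_bound_of_continuous hψ.continuous
  obtain ⟨δ, hδ⟩ := hc.isCompact.exists_bound_of_continuousOn hw.continuous.continuousOn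
  have hw' : LipschitzWith N fun z => max (-|δ|) (min |δ| (w z)) := (hw.const_min _).const_max _
  have hb : ∀ z, |max (-|δ|) (min |δ| (w z))| ≤ |δ| := fun z =>
    abs_le.2 ⟨le_max_left _ _, max_le (by linarith [abs_nonneg δ]) (min_le_left _ _)⟩
  have e : (fun z => ψ z * w z) = fun z => ψ z * max (-|δ|) (min |δ| (w z)) := by
    funext z
    by_cases hz : z ∈ tsupport ψ
    · have h1 := abs_le.1 ((hδ z hz).trans (le_abs_self δ))
      rw [min_eq_right h1.2, max_eq_right h1.1]
    · simp [image_eq_zero_of_notMem_tsupport hz]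
  rw [e]
  obtain ⟨w', hw''⟩ : ∃ w' : Euc k → ℝ, ∀ z, max (-|δ|) (min |δ| (w z)) = w' z := ⟨_, fun _ => rfl⟩
  simp only [hw''] at hw' hb ⊢
  refine ⟨_, LipschitzWith.of_dist_le' (K := A * N + |δ| * M) fun x y => ?_⟩
  have h1 := hψ.dist_le_mul x y
  have h2 := hw'.dist_le_mul x y
  rw [Real.dist_eq] at h1 h2 ⊢
  calc |ψ x * w' x - ψ y * w' y| = |ψ x * (w' x - w' y) + w' y * (ψ x - ψ y)| := by ring_nf
    _ ≤ |ψ x| * |w' x - w' y| + |w' y| * |ψ x - ψ y| := by
      rw [← abs_mul, ← abs_mul]; exact abs_add_le _ _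
    _ ≤ A * (N * dist x y) + |δ| * (M * dist x y) :=
      add_le_add (mul_le_mul (hA x) h2 (abs_nonneg _) ((norm_nonneg _).trans (hA x)))
        (mul_le_mul (hb y) h1 (abs_nonneg _) (abs_nonneg _))
    _ = _ := by ring

/-- replacing one coordinate -/
theorem wcb_one {ψ : Euc k → ℝ} {M : ℝ≥0} (hψ : LipschitzWith M ψ) (hc : HasCompactSupport ψ)
    {g : Fin k → Euc k → ℝ} {L : ℝ≥0} (hg : ∀ a, LipschitzWith L (g a)) (a : Fin k)
    {u v : Euc k → ℝ} (hu : LipschitzWith L u) (hv : LipschitzWith L v) {δ : ℝ}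
    (hδ : ∀ z ∈ tsupport ψ, |u z - v z| ≤ δ) :
    |(∫ z, ψ z * jacE univ (Function.update g a u) z) - ∫ z, ψ z * jacE univ (Function.update g a v) z|
      ≤ δ * volume.real (tsupport ψ) * ((max L M : ℝ≥0) : ℝ) ^ k := by
  obtain ⟨n, rfl⟩ : ∃ n, k = n + 1 := ⟨k - 1, by have := a.pos; omega⟩
  have hK := hc.isCompact
  have hi : Integrable ψ := hψ.continuous.integrable_of_hasCompactSupport hc
  obtain ⟨C, hC⟩ := wcb_mul hψ hc (hu.sub hv)
  have h0 := integral_det_eq_zero _ (wcb_lip_upd hg a hC) a (by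
    rw [Function.update_self]
    exact hc.mul_right)
  have hw : IntegrableOn (fun z => u z - v z) (tsupport ψ) :=
    (hu.continuous.sub hv.continuous).continuousOn.integrableOn_compact hK
  have hw' := (integrable_indicator_iff hK.measurableSet).2 hw
  have i1 := wcb_int hi (wcb_lip_upd hg a hu)
  have i2 := wcb_int hi (wcb_lip_upd hg a hv)
  have i3 := wcb_int hw' (wcb_lip_upd hg a hψ)
  have e : ∀ᵐ z, jacE univ (Function.update g a fun z => ψ z * (u - v) z) z =
      ψ z * jacE univ (Function.update g a u) z - ψ z * jacE univ (Function.update g a v) z +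
        (tsupport ψ).indicator (fun z => u z - v z) z * jacE univ (Function.update g a ψ) z := by
    filter_upwards [hψ.ae_differentiableAt, hu.ae_differentiableAt, hv.ae_differentiableAt]
      with z d1 d2 d3
    have e1 : (tsupport ψ).indicator (fun z => u z - v z) z * jacE univ (Function.update g a ψ) z =
        (u z - v z) * jacE univ (Function.update g a ψ) z := by
      by_cases hz : z ∈ tsupport ψ
      · rw [indicator_of_mem hz]
      · rw [wcb_upd, Matrix.det_eq_zero_of_row_eq_zero a fun j => by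
          simp [fderiv_of_notMem_tsupport ℝ hz], mul_zero, mul_zero]
    have e2 : (fun j => fderiv ℝ (fun z => ψ z * (u - v) z) z (EuclideanSpace.single j 1)) =
        (ψ z • fun j => fderiv ℝ u z (EuclideanSpace.single j 1)) +
          ((-ψ z) • fun j => fderiv ℝ v z (EuclideanSpace.single j 1)) +
          (u z - v z) • fun j => fderiv ℝ ψ z (EuclideanSpace.single j 1) := by
      funext j
      rw [(d1.hasFDerivAt.fun_mul (d2.hasFDerivAt.sub d3.hasFDerivAt)).fderiv]
      simp
      ring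
    rw [e1]
    simp only [wcb_upd]
    rw [e2]
    simp only [Matrix.det_updateRow_add, Matrix.det_updateRow_smul]
    ring
  have h0' : ∫ z, jacE univ (Function.update g a fun z => ψ z * (u - v) z) z = 0 := h0
  have i12 : Integrable fun z => ψ z * jacE univ (Function.update g a u) z -
    ψ z * jacE univ (Function.update g a v) z := i1.sub i2
  rw [integral_congr_ae e, integral_add i12 i3, integral_sub i1 i2] at h0'
  rw [eq_neg_of_add_eq_zero_left h0', abs_neg]
  refine (wcb_le hw' (wcb_lip_upd hg a hψ)).trans (mul_le_mul_of_nonneg_right ?_ (by positivity))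
  simp only [norm_indicator_eq_indicator_norm]
  rw [integral_indicator hK.measurableSet]
  refine (le_abs_self _).trans ?_
  exact norm_setIntegral_le_of_norm_le_const (f := fun z => ‖u z - v z‖) hK.measure_lt_top
    fun z hz => by simpa using hδ z hz

theorem wcb_all {ψ : Euc k → ℝ} {M : ℝ≥0} (hψ : LipschitzWith M ψ) (hc : HasCompactSupport ψ)
    {g G : Fin k → Euc k → ℝ} {L : ℝ≥0} (hg : ∀ a, LipschitzWith L (g a))
    (hG : ∀ a, LipschitzWith L (G a)) {δ : ℝ} (hδ : ∀ a, ∀ z ∈ tsupport ψ, |g a z - G a z| ≤ δ) :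
    |(∫ z, ψ z * jacE univ g z) - ∫ z, ψ z * jacE univ G z|
      ≤ k * (δ * volume.real (tsupport ψ) * ((max L M : ℝ≥0) : ℝ) ^ k) := by
  have key : ∀ s : Finset (Fin k),
      |(∫ z, ψ z * jacE univ (s.piecewise g G) z) - ∫ z, ψ z * jacE univ G z|
        ≤ s.card * (δ * volume.real (tsupport ψ) * ((max L M : ℝ≥0) : ℝ) ^ k) := by
    intro s
    induction s using Finset.induction_on with
    | empty => simp
    | insert a s ha ih =>
      have hs : ∀ b, LipschitzWith L (s.piecewise g G b) := fun b => by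
        by_cases hb : b ∈ s
        · rw [Finset.piecewise_eq_of_mem _ _ _ hb]; exact hg b
        · rw [Finset.piecewise_eq_of_notMem _ _ _ hb]; exact hG b
      have h1 := wcb_one hψ hc hs a (hg a) (hG a) (hδ a)
      rw [← Finset.piecewise_eq_of_notMem s g G ha, Function.update_eq_self] at h1
      rw [Finset.piecewise_insert, Finset.card_insert_of_notMem ha]
      refine (abs_sub_le _ _ _).trans ((add_le_add h1 ih).trans_eq ?_)
      push_cast
      ring
  simpa using key Finset.univ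

theorem wcb_unif {ι : Type*} {l : Filter ι} {g : ι → Euc k → ℝ} {G : Euc k → ℝ} {L : ℝ≥0}
    (hg : ∀ j, LipschitzWith L (g j)) (hG : LipschitzWith L G)
    (hlim : ∀ z, Tendsto (fun j => g j z) l (𝓝 (G z))) {K : Set (Euc k)} (hK : IsCompact K)
    {δ : ℝ} (hδ : 0 < δ) : ∀ᶠ j in l, ∀ z ∈ K, |g j z - G z| ≤ δ := by
  have hη : 0 < δ / (2 * L + 1) := by positivity
  obtain ⟨t, -, ht, hcov⟩ := Metric.finite_approx_of_totallyBounded hK.totallyBounded _ hη
  filter_upwards [(eventually_all_finite ht).2 fun y _ => Metric.tendsto_nhds.1 (hlim y) _ hη]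
    with j hj z hz
  obtain ⟨y, hy, hzy⟩ := mem_iUnion₂.1 (hcov hz)
  have h1 := (hg j).dist_le_mul z y
  have h2 := hG.dist_le_mul y z
  have h3 := hj y hy
  have h4 : dist z y ≤ δ / (2 * L + 1) := (Metric.mem_ball.1 hzy).le
  have h5 := mul_le_mul_of_nonneg_left h4 L.2
  have h6 := dist_triangle4 (g j z) (g j y) (G y) (G z)
  have h7 : (2 * L + 1) * (δ / (2 * L + 1)) = δ := by field_simp
  rw [dist_comm y z] at h2
  rw [← Real.dist_eq]
  have h8 : (L.1 : ℝ) = L := rfl
  rw [h8] at h5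
  linarith

theorem wcb_glob {ι : Type*} {l : Filter ι} {ρ : Euc k → ℝ} (hρ : Integrable ρ)
    {g : ι → Fin k → Euc k → ℝ} {G : Fin k → Euc k → ℝ} {L : ℝ≥0}
    (hg : ∀ j a, LipschitzWith L (g j a)) (hG : ∀ a, LipschitzWith L (G a))
    (hlim : ∀ a z, Tendsto (fun j => g j a z) l (𝓝 (G a z))) :
    Tendsto (fun j => ∫ z, ρ z * jacE univ (g j) z) l (𝓝 (∫ z, ρ z * jacE univ G z)) := by
  refine Metric.tendsto_nhds.2 fun ε hε => ?_
  have hη : 0 < ε / (2 * (L : ℝ) ^ k + 2) := by positivity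
  have h7 : (2 * (L : ℝ) ^ k + 2) * (ε / (2 * (L : ℝ) ^ k + 2)) = ε := by field_simp
  generalize ε / (2 * (L : ℝ) ^ k + 2) = η at hη h7
  obtain ⟨ψ, hc, hs, hn⟩ := (memLp_one_iff_integrable.2 hρ).exist_eLpNorm_sub_le ENNReal.one_ne_top
    le_rfl hη
  obtain ⟨M, hM⟩ := ContDiff.lipschitzWith_of_hasCompactSupport hc hs (by simp)
  have hi : Integrable ψ := hM.continuous.integrable_of_hasCompactSupport hc
  have hn' : ∫ z, ‖ρ z - ψ z‖ ≤ η := by
    rw [eLpNorm_one_eq_lintegral_enorm] at hn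
    exact (integral_norm_eq_lintegral_enorm (hρ.sub hi).aestronglyMeasurable).trans_le
      (ENNReal.toReal_le_of_le_ofReal hη.le hn)
  have hd : ∀ {f : Fin k → Euc k → ℝ}, (∀ a, LipschitzWith L (f a)) →
      |(∫ z, ρ z * jacE univ f z) - ∫ z, ψ z * jacE univ f z| ≤ η * (L : ℝ) ^ k := by
    intro f hf
    rw [← integral_sub (wcb_int hρ hf) (wcb_int hi hf)]
    simp only [← sub_mul]
    exact (wcb_le (hρ.sub hi) hf).trans (mul_le_mul_of_nonneg_right hn' (by positivity))
  obtain ⟨B, hB, hB0⟩ : ∃ B : ℝ, B = k * (volume.real (tsupport ψ) * ((max L M : ℝ≥0) : ℝ) ^ k) ∧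
    0 ≤ B := ⟨_, rfl, by positivity⟩
  have hδ : 0 < η / (B + 1) := by positivity
  filter_upwards [eventually_all.2 fun a => wcb_unif (fun j => hg j a) (hG a) (hlim a) hc.isCompact hδ]
    with j hj
  have h1 := wcb_all hM hc (hg j) hG hj
  have h2 : k * (η / (B + 1) * volume.real (tsupport ψ) * ((max L M : ℝ≥0) : ℝ) ^ k) ≤ η := by
    have : η / (B + 1) * B ≤ η := by
      rw [div_mul_eq_mul_div, div_le_iff₀ (by positivity)]
      nlinarith
    refine le_of_eq_of_le ?_ this
    rw [hB]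
    ring
  have h3 := abs_le.1 (hd (hg j))
  have h4 := abs_le.1 (hd hG)
  have h5 := abs_le.1 (h1.trans h2)
  rw [Real.dist_eq, abs_lt]
  constructor <;> linarith [h3.1, h3.2, h4.1, h4.2, h5.1, h5.2]

theorem wcb_ext {E : Set (Euc k)} (hE : MeasurableSet E) (ρ : Euc k → ℝ) {g G : Fin k → Euc k → ℝ}
    {L : ℝ≥0} (hG : ∀ a, LipschitzWith L (G a)) (h : ∀ a, EqOn (g a) (G a) E) :
    ∫ z in E, ρ z * jacE E g z = ∫ z, E.indicator ρ z * jacE univ G z := by
  simp only [← indicator_mul_left]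
  rw [integral_indicator hE]
  refine integral_congr_ae ?_
  filter_upwards [eventually_all.2 fun a => ae_fderivWithin_eq_fderiv hE (hG a) (h a)] with z hz
  simp only [jacE, fderivWithin_univ, fun a => (hz a).2.2]

theorem tendsto_integral_jacE {E : Set (Euc k)} (hE : MeasurableSet E) {ρ : Euc k → ℝ}
    (hρ : IntegrableOn ρ E) {g : ℕ → Fin k → Euc k → ℝ} {G : Fin k → Euc k → ℝ} {L : ℝ≥0}
    (hg : ∀ j a, LipschitzOnWith L (g j a) E)
    (hlim : ∀ a, ∀ z ∈ E, Tendsto (fun j => g j a z) atTop (𝓝 (G a z))) :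
    Tendsto (fun j => ∫ z in E, ρ z * jacE E (g j) z) atTop (𝓝 (∫ z in E, ρ z * jacE E G z)) := by
  rcases E.eq_empty_or_nonempty with rfl | ⟨w₀, hw₀⟩
  · simp
  choose g' hg' he using fun j a => (hg j a).extend_real
  rw [tendsto_iff_ultrafilter]
  intro 𝒰 h𝒰
  have hex : ∀ a z, ∃ y, Tendsto (fun j => g' j a z) 𝒰 (𝓝 y) := by
    intro a z
    have h1 : ∀ᶠ j in (𝒰 : Filter ℕ), g' j a z ∈ Metric.closedBall (G a w₀) (L * dist z w₀ + 1) := by
      filter_upwards [h𝒰 (Metric.tendsto_nhds.1 (hlim a w₀ hw₀) 1 one_pos)] with j hj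
      have h2 := (hg' j a).dist_le_mul z w₀
      rw [← he j a hw₀] at h2
      have h3 : dist (g j a w₀) (G a w₀) < 1 := hj
      exact (dist_triangle _ (g j a w₀) _).trans (add_le_add h2 h3.le)
    obtain ⟨y, -, hy⟩ := (isCompact_closedBall (G a w₀) (L * dist z w₀ + 1)).ultrafilter_le_nhds
      (𝒰.map fun j => g' j a z) (le_principal_iff.2 h1)
    exact ⟨y, hy⟩
  choose G' hG' using hex
  have hL : ∀ a, LipschitzWith L (G' a) := fun a => LipschitzWith.of_dist_le_mul fun x y =>
    le_of_tendsto' ((hG' a x).dist (hG' a y)) fun j => (hg' j a).dist_le_mul x y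
  have hE' : ∀ a, EqOn (G a) (G' a) E := fun a z hz =>
    tendsto_nhds_unique ((hlim a z hz).mono_left h𝒰) (by simpa only [he _ a hz] using hG' a z)
  rw [wcb_ext hE ρ hL hE']
  simp only [fun j => wcb_ext hE ρ (hg' j) (he j)]
  exact wcb_glob ((integrable_indicator_iff hE).2 hρ) hg' hL hG'

end Crest.Agent.R241
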