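import Crest.Agent.R241.Basic
import Crest.Agent.R241.WC

/-!
# Sums of chains, continuity, boundary relations, `0`-cycles.  Helper prefix `sum_`.
-/

open MeasureTheory Set Filter Topology
open Crest.GeometryTopology.MetricCurrent
open Crest.GeometryTopology.Submanifold (Euc unitBallVol unitSphereArea)
open scoped ENNReal NNReal InnerProductSpace

noncomputable section

namespace Crest.Agent.R241

universe u

variable {X : Type u} [MetricSpace X] {k : ℕ}

/-- general constructor: any countable index type (`Encodable.ofCountable`, `Encodable.decode₂`,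
empty pieces for unused indices) -/
theorem exists_ch_of_family [Nonempty X] {ι : Type*} [Countable ι] (E : ι → Set (Euc k))
    (φ : ι → Euc k → X) (sg : ι → ℝ) (hE : ∀ i, MeasurableSet (E i))
    (hφ : ∀ i, LipschitzOnWith 1 (φ i) (E i)) (hsg : ∀ i, sg i = 1 ∨ sg i = -1)
    (hfin : ∑' i, volume (E i) ≠ ⊤) :
    ∃ c : Ch X k, c.area = (∑' i, volume (E i)).toReal ∧
      (∀ f π, IsTestPair f π →
        HasSum (fun i => sg i * ∫ z in E i, f (φ i z) * jacOn (E i) (φ i) π z) (c.act f π)) ∧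
      (∀ K, (∀ i, MapsTo (φ i) (E i) K) → c.In K) ∧
      (∀ F : X → ℝ≥0∞, ∫⁻ w, F (c.pt w) ∂c.par = ∑' i, ∫⁻ z in E i, F (φ i z)) ∧
      ∀ (u : X → ℝ) (F : X → ℝ≥0∞), ∫⁻ w, F (c.pt w) * ‖c.grad u w‖ₑ ∂c.par
        = ∑' i, ∫⁻ z in E i, F (φ i z) * ‖fderivWithin ℝ (fun z => u (φ i z)) (E i) z‖ₑ := by
  obtain ⟨e, he⟩ := exists_injective_nat ι
  obtain ⟨E', h1, h0⟩ : ∃ E' : ℕ → Set (Euc k), (∀ i, E' (e i) = E i) ∧ ∀ n ∉ range e, E' n = ∅ :=
    ⟨Function.extend e E fun _ => ∅, fun i => he.extend_apply _ _ i, fun n hn => Function.extend_apply' _ _ n hn⟩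
  obtain ⟨φ', h2⟩ : ∃ φ' : ℕ → Euc k → X, ∀ i, φ' (e i) = φ i :=
    ⟨Function.extend e φ fun _ _ => Classical.arbitrary X, fun i => he.extend_apply _ _ i⟩
  obtain ⟨sg', h3, h4⟩ : ∃ sg' : ℕ → ℝ, (∀ i, sg' (e i) = sg i) ∧ ∀ n ∉ range e, sg' n = 1 :=
    ⟨Function.extend e sg fun _ => 1, fun i => he.extend_apply _ _ i, fun n hn => Function.extend_apply' _ _ n hn⟩
  have key : ∀ G : ℕ → ℝ≥0∞, (∀ n, E' n = ∅ → G n = 0) → ∑' n, G n = ∑' i, G (e i) := fun G hG =>
    (he.tsum_eq fun n hn => by_contra fun h => hn (hG n (h0 n h))).symm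
  have hv : ∑' n, volume (E' n) = ∑' i, volume (E i) := by
    rw [key _ fun n hn => by rw [hn, measure_empty]]
    simp only [h1]
  have hc : ∀ P : ℕ → Prop, (∀ i, P (e i)) → (∀ n ∉ range e, P n) → ∀ n, P n := fun P a b n => by
    by_cases h : n ∈ range e
    · obtain ⟨i, rfl⟩ := h
      exact a i
    · exact b n h
  let c : Ch X k := ⟨E', φ', sg',
    hc _ (fun i => (h1 i).symm ▸ hE i) fun n hn => (h0 n hn).symm ▸ MeasurableSet.empty,
    hc _ (fun i => (h1 i).symm ▸ (h2 i).symm ▸ hφ i) fun n hn => (h0 n hn).symm ▸ lipschitzOnWith_empty _ _,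
    hc _ (fun i => (h3 i).symm ▸ hsg i) fun n hn => Or.inl (h4 n hn), hv.symm ▸ hfin⟩
  refine ⟨c, by rw [c.area_eq, ← hv], fun f π h => ?_, fun K hK => ?_, fun F => ?_, fun u F => ?_⟩
  · refine ((he.hasSum_iff fun n hn => ?_).2 (c.hasSum_act h)).congr_fun fun i => ?_
    · simp [c, h0 n hn]
    · simp only [Function.comp, c, h1, h2, h3]
  · exact hc (fun n => MapsTo (φ' n) (E' n) K) (fun i => (h1 i).symm ▸ (h2 i).symm ▸ hK i)
      fun n hn => (h0 n hn).symm ▸ mapsTo_empty _ _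
  · rw [c.lintegral_par, key _ fun n hn => by simp [c, hn]]
    simp only [c, Ch.pt, h1, h2]
  · rw [c.lintegral_par, key _ fun n hn => by simp [c, hn]]
    simp only [← ofReal_norm, Ch.norm_grad]
    simp only [c, Ch.pt, h1, h2]

theorem exists_sum [Nonempty X] {ι : Type*} [Countable ι] (c : ι → Ch X k)
    (hs : Summable fun i => (c i).area) :
    ∃ s : Ch X k, s.area = ∑' i, (c i).area ∧
      (∀ f π, IsTestPair f π → HasSum (fun i => (c i).act f π) (s.act f π)) ∧
      ∀ K, (∀ i, (c i).In K) → s.In K := by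
  have hv : ∑' p : ι × ℕ, volume ((c p.1).E p.2) = ENNReal.ofReal (∑' i, (c i).area) := by
    rw [ENNReal.tsum_prod', ENNReal.ofReal_tsum_of_nonneg (fun i => (c i).area_nonneg) hs]
    exact tsum_congr fun i => by rw [(c i).area_eq, ENNReal.ofReal_toReal (c i).fin]
  obtain ⟨s, h1, h2, h3, -⟩ := exists_ch_of_family (fun p : ι × ℕ => (c p.1).E p.2) (fun p => (c p.1).φ p.2)
    (fun p => (c p.1).sg p.2) (fun p => (c p.1).meas p.2) (fun p => (c p.1).lip p.2) (fun p => (c p.1).hsg p.2)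
    (hv ▸ ENNReal.ofReal_ne_top)
  refine ⟨s, ?_, fun f π h => (h2 f π h).prod_fiberwise fun i => (c i).hasSum_act h,
    fun K hK => h3 K fun p => hK p.1 p.2⟩
  rw [h1, hv, ENNReal.toReal_ofReal (tsum_nonneg fun i => (c i).area_nonneg)]

theorem exists_add (c c' : Ch X k) :
    ∃ s : Ch X k, s.area = c.area + c'.area ∧
      (∀ f π, IsTestPair f π → s.act f π = c.act f π + c'.act f π) ∧
      ∀ K, c.In K → c'.In K → s.In K := by
  have : Nonempty X := ⟨c.φ 0 0⟩
  obtain ⟨s, h1, h2, h3⟩ := exists_sum ![c, c'] (hasSum_fintype _).summable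
  refine ⟨s, by simpa using h1, fun f π h => by simpa using (h2 f π h).unique (hasSum_fintype _),
    fun K a b => h3 K (Fin.forall_fin_two.2 ⟨a, b⟩)⟩

theorem sum_b_lipOn (c : Ch X k) {u : X → ℝ} {L : ℝ≥0} (hu : LipschitzWith L u) (i : ℕ) :
    LipschitzOnWith L (fun z => u (c.φ i z)) (c.E i) := by
  simpa [Function.comp_def] using hu.comp_lipschitzOnWith (c.lip i)

theorem sum_b_jac_le (c : Ch X k) {τ : Fin k → X → ℝ} {L : ℝ≥0}
    (hτ : ∀ a, LipschitzWith L (τ a)) : ∀ᵐ w ∂c.par, |c.jac τ w| ≤ (L : ℝ) ^ k := by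
  refine c.ae_par_iff.2 fun i => ?_
  filter_upwards [ae_abs_jacE_le (c.meas i) (L := fun _ => L) fun a => sum_b_lipOn c (hτ a) i]
    with z hz
  simpa [Ch.jac, jacOn_eq] using hz

theorem sum_b_jac_meas (c : Ch X k) {τ : Fin k → X → ℝ} {L : ℝ≥0}
    (hτ : ∀ a, LipschitzWith L (τ a)) : AEStronglyMeasurable (c.jac τ) c.par :=
  (c.aemeasurable_par_iff.2 fun i =>
    aemeasurable_jacE (c.meas i) (L := fun _ => L)
      fun a => sum_b_lipOn c (hτ a) i).aestronglyMeasurable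

theorem sum_b_sg_meas (c : Ch X k) : AEStronglyMeasurable (fun w : ℕ × Euc k => c.sg w.1) c.par :=
  ((measurable_of_countable c.sg).comp measurable_fst).aestronglyMeasurable

theorem sum_b_bound (c : Ch X k) {τ : Fin k → X → ℝ} {L : ℝ≥0}
    (hτ : ∀ a, LipschitzWith L (τ a)) {ρ : ℕ × Euc k → ℝ} {C : ℝ} (hC : ∀ w, |ρ w| ≤ C) :
    ∀ᵐ w ∂c.par, ‖c.sg w.1 * ρ w * c.jac τ w‖ ≤ C * (L : ℝ) ^ k := by
  filter_upwards [sum_b_jac_le c hτ] with w hw
  rw [Real.norm_eq_abs, abs_mul, abs_mul, c.abs_sg, one_mul]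
  exact mul_le_mul (hC w) hw (abs_nonneg _) ((abs_nonneg _).trans (hC w))

theorem sum_b_int (c : Ch X k) {τ : Fin k → X → ℝ} {L : ℝ≥0}
    (hτ : ∀ a, LipschitzWith L (τ a)) {ρ : ℕ × Euc k → ℝ} (hρ : AEStronglyMeasurable ρ c.par)
    {C : ℝ} (hC : ∀ w, |ρ w| ≤ C) :
    Integrable (fun w => c.sg w.1 * ρ w * c.jac τ w) c.par :=
  Integrable.of_bound (((sum_b_sg_meas c).mul hρ).mul (sum_b_jac_meas c hτ)) _
    (sum_b_bound c hτ hC)

/-- (WC) for chains -/
theorem Ch.tendsto_act (c : Ch X k) {f : ℕ → X → ℝ} {F : X → ℝ} {π : ℕ → Fin k → X → ℝ}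
    {P : Fin k → X → ℝ} (hf : ∀ j, Continuous (f j)) {C : ℝ} (hC : ∀ j y, |f j y| ≤ C)
    (hfF : ∀ y, Tendsto (fun j => f j y) atTop (𝓝 (F y))) {L : ℝ≥0}
    (hL : ∀ j a, LipschitzWith L (π j a))
    (hπ : ∀ a y, Tendsto (fun j => π j a y) atTop (𝓝 (P a y))) :
    Tendsto (fun j => c.act (f j) (π j)) atTop (𝓝 (c.act F P)) := by
  have hP : ∀ a, LipschitzWith L (P a) := fun a => LipschitzWith.of_dist_le_mul fun x y =>
    le_of_tendsto' ((hπ a x).dist (hπ a y)) fun j => (hL j a).dist_le_mul x y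
  have hFC : ∀ y, |F y| ≤ C := fun y => le_of_tendsto' (hfF y).abs fun j => hC j y
  have hFm : AEStronglyMeasurable (fun w => F (c.pt w)) c.par :=
    aestronglyMeasurable_of_tendsto_ae atTop (fun j => c.aesm_comp_pt (hf j))
      (Eventually.of_forall fun w => hfF _)
  have hD : ∀ j y, |f j y - F y| ≤ C + C := fun j y =>
    (abs_sub _ _).trans (add_le_add (hC j y) (hFC y))
  -- part 1
  have h1 : Tendsto (fun j => ∫ w, c.sg w.1 * (f j (c.pt w) - F (c.pt w)) * c.jac (π j) w ∂c.par)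
      atTop (𝓝 0) := by
    have := tendsto_integral_of_dominated_convergence (μ := c.par)
      (F := fun j w => c.sg w.1 * (f j (c.pt w) - F (c.pt w)) * c.jac (π j) w) (f := fun _ => 0)
      (fun _ => (C + C) * (L : ℝ) ^ k)
      (fun j => ((sum_b_sg_meas c).mul ((c.aesm_comp_pt (hf j)).sub hFm)).mul
        (sum_b_jac_meas c (hL j))) (integrable_const _)
      (fun j => sum_b_bound c (hL j) (ρ := fun w => f j (c.pt w) - F (c.pt w)) fun w => hD j _) ?_
    · simpa using this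
    filter_upwards [ae_all_iff.2 fun j => sum_b_jac_le c (hL j)] with w hw
    have h0 : Tendsto (fun j => |f j (c.pt w) - F (c.pt w)| * (L : ℝ) ^ k) atTop (𝓝 0) := by
      have := (((hfF (c.pt w)).sub_const (F (c.pt w))).abs).mul_const ((L : ℝ) ^ k)
      simpa using this
    refine squeeze_zero_norm (fun j => ?_) h0
    rw [Real.norm_eq_abs, abs_mul, abs_mul, c.abs_sg, one_mul]
    exact mul_le_mul_of_nonneg_left (hw j) (abs_nonneg _)
  -- part 2
  have h2 : Tendsto (fun j => c.act F (π j)) atTop (𝓝 (c.act F P)) := by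
    have hs : ∀ τ : Fin k → X → ℝ, (∀ a, LipschitzWith L (τ a)) → c.act F τ
        = ∑' i, ∫ z in c.E i, c.sg i * F (c.φ i z) * jacE (c.E i) (fun a w => τ a (c.φ i w)) z :=
      fun τ hτ => (c.hasSum_integral_par (sum_b_int c hτ hFm fun w => hFC _)).tsum_eq.symm
    have hfin : ∀ i, volume (c.E i) ≠ ⊤ := fun i => ne_top_of_le_ne_top c.fin (ENNReal.le_tsum i)
    rw [hs P hP]
    simp only [fun j => hs (π j) (hL j)]
    refine tendsto_tsum_of_dominated_convergence
      (bound := fun i => C * (L : ℝ) ^ k * (volume (c.E i)).toReal)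
      ((ENNReal.summable_toReal c.fin).mul_left _) (fun i => ?_)
      (Eventually.of_forall fun j i => ?_)
    · have : IsFiniteMeasure (volume.restrict (c.E i)) := isFiniteMeasure_restrict.2 (hfin i)
      refine tendsto_integral_jacE (c.meas i) (ρ := fun z => c.sg i * F (c.φ i z)) ?_
        (fun j a => sum_b_lipOn c (hL j a) i) fun a z _ => hπ a _
      refine Integrable.of_bound (C := C) ?_ (Eventually.of_forall fun z => ?_)
      · exact ((c.aemeasurable_par_iff.1 hFm.aemeasurable i).const_mul _).aestronglyMeasurable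
      · rw [Real.norm_eq_abs, abs_mul, c.abs_sg, one_mul]
        exact hFC _
    · exact norm_setIntegral_le_of_norm_le_const_ae (hfin i).lt_top
        (c.ae_par_iff.1 (sum_b_bound c (hL j) (ρ := fun w => F (c.pt w)) fun w => hFC _) i)
  have h3 := h1.add h2
  rw [zero_add] at h3
  refine h3.congr fun j => ?_
  rw [Ch.act, Ch.act, ← integral_add
    (sum_b_int c (hL j) (ρ := fun w => f j (c.pt w) - F (c.pt w))
      ((c.aesm_comp_pt (hf j)).sub hFm) fun w => hD j _)
    (sum_b_int c (hL j) hFm fun w => hFC _)]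
  exact integral_congr_ae (Eventually.of_forall fun w => by simp only; ring)

/-- `y ↦ min (q₀, min_{p ∈ l} (p.2 + L * dist y p.1))` -/
def sum_b_cone (L q₀ : ℝ) : List (X × ℝ) → X → ℝ
  | [] => fun _ => q₀
  | p :: l => fun y => min (p.2 + L * dist y p.1) (sum_b_cone L q₀ l y)

theorem sum_b_cone_lip (L : ℝ≥0) (q₀ : ℝ) :
    ∀ l : List (X × ℝ), LipschitzWith L (sum_b_cone (L : ℝ) q₀ l)
  | [] => (LipschitzWith.const q₀).weaken zero_le
  | p :: l => by
    have h : LipschitzWith L fun y : X => p.2 + (L : ℝ) * dist y p.1 := by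
      refine LipschitzWith.of_dist_le_mul fun x y => ?_
      rw [dist_add_left, Real.dist_eq, ← mul_sub, abs_mul, abs_of_nonneg L.coe_nonneg]
      exact mul_le_mul_of_nonneg_left (abs_dist_sub_le x y p.1) L.coe_nonneg
    have h2 := h.min (sum_b_cone_lip L q₀ l)
    rwa [max_self] at h2

theorem sum_b_cone_le (L q₀ : ℝ) (y : X) :
    ∀ l : List (X × ℝ), ∀ p ∈ l, sum_b_cone L q₀ l y ≤ p.2 + L * dist y p.1
  | [], p, hp => by simp at hp
  | r :: l, p, hp => by
    rcases List.mem_cons.1 hp with rfl | hp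
    · exact min_le_left _ _
    · exact (min_le_right _ _).trans (sum_b_cone_le L q₀ y l p hp)

theorem sum_b_le_cone (L q₀ : ℝ) (y : X) {b : ℝ} (hb : b ≤ q₀) :
    ∀ l : List (X × ℝ), (∀ p ∈ l, b ≤ p.2 + L * dist y p.1) → b ≤ sum_b_cone L q₀ l y
  | [], _ => hb
  | r :: l, h => le_min (h r List.mem_cons_self)
      (sum_b_le_cone L q₀ y hb l fun p hp => h p (List.mem_cons_of_mem _ hp))

/-- a countable family of Lipschitz functions, dense for pointwise convergence with bounded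
Lipschitz constants: `y ↦ min_{i ≤ N} (q i + L * dist y (x i))`, `x i` dense, `q i` rational -/
theorem exists_countable_lip [CompactSpace X] : ∃ D : Set (X → ℝ), D.Countable ∧
    (∀ g ∈ D, Lip g) ∧ ∀ f : X → ℝ, Lip f → ∃ (L : ℝ≥0) (g : ℕ → X → ℝ), (∀ j, g j ∈ D) ∧
      (∀ j, LipschitzWith L (g j)) ∧ TendstoUniformly g f atTop := by
  obtain ⟨S, hSc, hSd⟩ := TopologicalSpace.exists_countable_dense X
  have : Countable S := hSc.to_subtype
  let G : ℕ × ℚ × List (S × ℚ) → X → ℝ := fun t =>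
    sum_b_cone (((t.1 : ℝ≥0)) : ℝ) t.2.1 (t.2.2.map fun p => ((p.1 : X), (p.2 : ℝ)))
  refine ⟨range G, countable_range G, ?_, ?_⟩
  · rintro _ ⟨t, rfl⟩
    exact ⟨_, sum_b_cone_lip _ _ _⟩
  rintro f ⟨K, hK⟩
  obtain ⟨n, hn⟩ := exists_nat_ge K
  have hf : LipschitzWith (n : ℝ≥0) f := hK.weaken hn
  obtain ⟨B, hB⟩ := isCompact_univ.exists_bound_of_continuousOn hf.continuous.continuousOn
  obtain ⟨q₀, hq₀⟩ := exists_rat_gt B
  have key : ∀ ε > 0, ∃ l : List (S × ℚ), ∀ y,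
      dist (f y) (G (n, q₀, l) y) ≤ (2 * ((n : ℝ≥0) : ℝ) + 1) * ε := by
    intro ε hε
    obtain ⟨t, ht⟩ := isCompact_univ.elim_finite_subcover (fun x : S => Metric.ball (x : X) ε)
      (fun _ => Metric.isOpen_ball) fun y _ => by
        obtain ⟨x, hx, hxy⟩ := hSd.exists_dist_lt y hε
        exact mem_iUnion.2 ⟨⟨x, hx⟩, hxy⟩
    choose q hq using fun x : S => exists_rat_btwn (lt_add_of_pos_right (f x) hε)
    refine ⟨t.toList.map fun x => (x, q x), fun y => ?_⟩
    have hL : (0 : ℝ) ≤ ((n : ℝ≥0) : ℝ) := NNReal.coe_nonneg _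
    have hd : ∀ x : X, |f y - f x| ≤ ((n : ℝ≥0) : ℝ) * dist y x := fun x => hf.dist_le_mul y x
    have h1 : f y ≤ G (n, q₀, t.toList.map fun x => (x, q x)) y := by
      refine sum_b_le_cone _ _ y (((le_abs_self _).trans (hB y (mem_univ _))).trans hq₀.le) _ ?_
      intro p hp
      simp only [List.map_map, List.mem_map, Function.comp_apply] at hp
      obtain ⟨x, -, rfl⟩ := hp
      have := (abs_le.1 (hd x)).2
      have := (hq x).1
      simp only
      linarith
    obtain ⟨x, hx⟩ := mem_iUnion.1 (ht (mem_univ y))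
    obtain ⟨hxt, hxy⟩ := mem_iUnion.1 hx
    have h2 : G (n, q₀, t.toList.map fun x => (x, q x)) y
        ≤ (q x : ℝ) + ((n : ℝ≥0) : ℝ) * dist y (x : X) :=
      sum_b_cone_le _ _ y _ ((x : X), (q x : ℝ))
        (List.mem_map.2 ⟨(x, q x), List.mem_map.2 ⟨x, Finset.mem_toList.2 hxt, rfl⟩, rfl⟩)
    have h3 : ((n : ℝ≥0) : ℝ) * dist y (x : X) ≤ ((n : ℝ≥0) : ℝ) * ε :=
      mul_le_mul_of_nonneg_left (Metric.mem_ball.1 hxy).le hL
    have h4 := (abs_le.1 (hd x)).1
    have h5 := (hq x).2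
    rw [Real.dist_eq, abs_sub_comm, abs_of_nonneg (sub_nonneg.2 h1)]
    linarith
  choose l hl using fun j : ℕ => key (1 / ((j : ℝ) + 1)) Nat.one_div_pos_of_nat
  refine ⟨n, fun j => G (n, q₀, l j), fun j => mem_range_self _, fun j => sum_b_cone_lip _ _ _,
    Metric.tendstoUniformly_iff.2 fun ε hε => ?_⟩
  have h0 : Tendsto (fun j : ℕ => (2 * ((n : ℝ≥0) : ℝ) + 1) * (1 / ((j : ℝ) + 1))) atTop (𝓝 0) := by
    simpa using tendsto_one_div_add_atTop_nhds_zero_nat.const_mul (2 * ((n : ℝ≥0) : ℝ) + 1)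
  filter_upwards [h0.eventually (gt_mem_nhds hε)] with j hj y
  exact (hl j y).trans_lt hj

theorem IsBd.isCyc [CompactSpace X] {S : Ch X (k + 1)} {c : Ch X k} (h : IsBd S c) : c.IsCyc := by
  intro π hπ
  rw [← h _ π (isTestPair_iff.2 ⟨Lip.const 1, hπ⟩)]
  exact S.act_eq_zero_of_const _ (a := 0) (t := 1) rfl

theorem Homol.isCyc [CompactSpace X] {c c' : Ch X k} {R : Ch X (k + 1)} (h : Homol c c' R)
    (hc : c.IsCyc) : c'.IsCyc := by
  intro π hπ
  have h1 := h _ π (isTestPair_iff.2 ⟨Lip.const 1, hπ⟩)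
  rw [hc π hπ, R.act_eq_zero_of_const _ (a := 0) (t := 1) rfl, add_zero] at h1
  exact h1.symm

/-- `c = c' + ∂ R`, `c' = c'' + ∂ R'` -/
theorem Homol.trans {c c' c'' : Ch X k} {R R' : Ch X (k + 1)} (h : Homol c c' R)
    (h' : Homol c' c'' R') : ∃ S, Homol c c'' S ∧ S.area = R.area + R'.area := by
  obtain ⟨S, h1, h2, -⟩ := exists_add R R'
  refine ⟨S, fun f π hf => ?_, h1⟩
  rw [h f π hf, h' f π hf, h2 _ _ (isTestPair_cons hf)]
  ring

theorem Homol.fill {c c' : Ch X k} {R S : Ch X (k + 1)} (h : Homol c c' R) (h' : IsBd S c') :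
    ∃ S', IsBd S' c ∧ S'.area = R.area + S.area := by
  obtain ⟨S', h1, h2, -⟩ := exists_add R S
  refine ⟨S', fun f π hf => ?_, h1⟩
  rw [h f π hf, h2 _ _ (isTestPair_cons hf), h' f π hf, add_comm]

theorem homol_refl (c : Ch X k) (x : X) : Homol c c (Ch.zero x (k + 1)) := fun f π _ => by
  rw [Ch.act_zero, add_zero]

theorem IsBd.push {Y : Type u} [MetricSpace Y] {S : Ch X (k + 1)} {c : Ch X k} (h : IsBd S c)
    (p : X → Y) (hp : LipschitzWith 1 p) : IsBd (S.push p hp) (c.push p hp) := by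
  intro f π hf
  rw [Ch.act_push, Ch.act_push, ← h _ _ (isTestPair_comp hf hp)]
  congr 1
  funext a
  refine Fin.cases rfl (fun _ => rfl) a

theorem sum_vol_zero : volume (univ : Set (Euc 0)) = 1 := by
  rw [← (PiLp.volume_preserving_toLp (Fin 0)).measure_preimage MeasurableSet.univ.nullMeasurableSet,
    preimage_univ, volume_pi, Measure.pi_univ, Finset.univ_eq_empty, Finset.prod_empty]

/-- a `0`-cycle of area `< 2` vanishes: `Euc 0` is a point of volume one -/
theorem Ch.act_eq_zero_of_area_lt (c : Ch X 0) (hc : c.IsCyc) (h : c.area < 2) (f : X → ℝ)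
    (π : Fin 0 → X → ℝ) : c.act f π = 0 := by
  have hE : ∀ i, c.E i = ∅ := by
    intro i
    by_contra hi
    have hu : ∀ j, c.E j ≠ ∅ → c.E j = univ := fun j hj => Subsingleton.eq_univ_of_nonempty
      (nonempty_iff_ne_empty.2 hj)
    have h1 : ∀ j, j ≠ i → c.E j = ∅ := by
      intro j hj
      by_contra hj'
      have h2 := ENNReal.sum_le_tsum (f := fun i => volume (c.E i)) {j, i}
      rw [Finset.sum_pair hj, hu i hi, hu j hj', sum_vol_zero] at h2
      have h3 := ENNReal.toReal_mono c.fin h2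
      rw [← c.area_eq] at h3
      norm_num at h3
      linarith
    have h4 := (c.hasSum_act (f := fun _ => 1) (π := π)
      ⟨Lip.const 1, ⟨1, fun _ => by simp⟩, fun a => a.elim0⟩).unique
      (hasSum_single i fun j hj => by simp [h1 j hj])
    rw [hc π fun a => a.elim0, hu i hi] at h4
    simp only [jacOn, Matrix.det_isEmpty, mul_one, Measure.restrict_univ, integral_const, Measure.real,
      sum_vol_zero, ENNReal.toReal_one, smul_eq_mul] at h4
    rcases c.hsg i with h5 | h5 <;> rw [h5] at h4 <;> norm_num at h4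
  simp [Ch.act, Ch.par, hE]

theorem NearMin.subseq {P : ℝ → ℝ} {Λ A : ℝ} {c : ℕ → Ch X k} (h : NearMin P Λ A c) {φ : ℕ → ℕ}
    (hφ : StrictMono φ) : NearMin P Λ A fun j => c (φ j) :=
  ⟨h.Λ_pos, h.A_pos, h.mono, h.cont, h.deriv, h.slope, fun _ => h.cyc _, h.area.comp hφ.tendsto_atTop,
    fun η hη => hφ.tendsto_atTop.eventually (h.near η hη)⟩

end Crest.Agent.R241
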