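import Crest.Agent.R241.Slice
import Crest.Agent.R241.HypA
import Crest.Agent.R241.Prof
import Crest.Agent.R241.Meas.Cut
import Crest.Agent.R241.Meas.Top

/-!
# Block J: measure theory on `S`.  Owner file; helpers in `R241/Meas/*`.
See `notes241/R241.md`, section J.
-/

open MeasureTheory Set Filter Topology
open Crest.GeometryTopology.MetricCurrent
open Crest.GeometryTopology.Submanifold (Euc unitBallVol unitSphereArea)
open scoped ENNReal NNReal InnerProductSpace

noncomputable section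

namespace Crest.Agent.R241

universe u

open Crest.GeometryTopology.Submanifold (metricMat relBoundary)
open MeasureTheory.Measure (euclideanHausdorffMeasure)

variable {N n : ℕ} {σ : ℝ} {S : Set (Euc N)} {X : Type} [MetricSpace X] [MeasurableSpace X]
  [BorelSpace X] {j : X → Euc N}

/-- area formula -/
theorem Chart.muHE {d : ℕ} {x₀ : X} {e : Euc d ≃ₜ X} (G : Geo σ d S X j) (h : Chart j x₀ e)
    {A : Set (Euc d)} (hA : MeasurableSet A) :
    euclideanHausdorffMeasure d ((j ∘ e) '' A)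
      = ∫⁻ v in A, ENNReal.ofReal √(metricMat (j ∘ e) v).det := h.muHE' G hA

/-- `g ≥ 1` (`expand`), `g` continuous and `∫ √det g = vol` force `g = 1` -/
theorem Chart.rigid {d : ℕ} {x₀ : X} {e : Euc d ≃ₜ X} (G : Geo σ d S X j) (h : Chart j x₀ e)
    {r : ℝ} (hr : 0 < r) (hv : euclideanHausdorffMeasure d ((j ∘ e) '' Metric.ball 0 r)
      = ENNReal.ofReal (om d * r ^ d)) : ∀ v ∈ Metric.ball (0 : Euc d) r, metricMat (j ∘ e) v = 1 := by
  rw [h.muHE' G Metric.isOpen_ball.measurableSet, ← volume_ball_eq d 0 hr] at hv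
  exact h.expF.rigid Metric.isOpen_ball measure_ball_lt_top.ne hv

theorem meas_setup {x₀ : X} {e : Euc (n + 1) ≃ₜ X} (G : Geo σ (n + 1) S X j) (h : Chart j x₀ e)
    {E : Set (Euc N)} (hES : E ⊆ S) (hopen : ∃ U : Set (Euc N), IsOpen U ∧ E = S ∩ U) {A : ℝ}
    (hA : euclideanHausdorffMeasure n (relBoundary S E) ≤ ENNReal.ofReal A) :
    IsOpen ((j ∘ e) ⁻¹' E) ∧ (j ∘ e) '' ((j ∘ e) ⁻¹' E) = E ∧
      volume (frontier ((j ∘ e) ⁻¹' E)) = 0 ∧ ∃ lam : Measure (Euc (n + 1)),
        lam univ ≤ ENNReal.ofReal A ∧ ∀ R, Bounds (fderiv ℝ (j ∘ e)) R ((j ∘ e) ⁻¹' E) lam := by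
  have hc : Continuous (j ∘ e) := h.smooth.continuous
  have hr : range (j ∘ e) = S := by rw [e.surjective.range_comp, G.range_eq]
  have hmem : ∀ z, (j ∘ e) z ∈ S := fun z => hr ▸ mem_range_self z
  have hsub : (j ∘ e) '' frontier ((j ∘ e) ⁻¹' E) ⊆ relBoundary S E := by
    rintro _ ⟨z, hz, rfl⟩
    rw [frontier_eq_closure_inter_closure] at hz
    refine ⟨closure_mono (image_preimage_subset _ _) (image_closure_subset_closure_image hc
      ⟨z, hz.1, rfl⟩), closure_mono ?_ (image_closure_subset_closure_image hc ⟨z, hz.2, rfl⟩)⟩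
    rintro _ ⟨y, hy, rfl⟩
    exact ⟨hmem y, hy⟩
  have hle : euclideanHausdorffMeasure n ((j ∘ e) '' frontier ((j ∘ e) ⁻¹' E)) ≤ ENNReal.ofReal A :=
    (measure_mono hsub).trans hA
  refine ⟨?_, image_preimage_eq_of_subset (hr ▸ hES), ?_, ?_⟩
  · obtain ⟨U, hU, rfl⟩ := hopen
    convert hU.preimage hc using 1
    ext z
    exact ⟨fun hz => hz.2, fun hz => ⟨hmem z, hz⟩⟩
  · rcases Measure.euclideanHausdorffMeasure_zero_or_top (Nat.lt_succ_self n)
      ((j ∘ e) '' frontier ((j ∘ e) ⁻¹' E)) with h0 | h0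
    · rw [h.muHE' G isClosed_frontier.measurableSet] at h0
      refine le_antisymm (le_trans ?_ h0.le) (zero_le)
      rw [← setLIntegral_one]
      refine lintegral_mono fun v => ?_
      rw [← ENNReal.ofReal_one]
      exact ENNReal.ofReal_le_ofReal (h.expF.one_le v)
    · rw [h0] at hle
      exact absurd (top_le_iff.1 hle) ENNReal.ofReal_ne_top
  · obtain ⟨lam, h1, h2⟩ := h.expF.bounds h.hasFDerivAt (G.emb.injective.comp e.injective)
      ((j ∘ e) ⁻¹' E)
    exact ⟨lam, h1 ▸ hle, h2⟩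

/-- exhaustion of an open set -/
theorem meas_exhaust {d : ℕ} (ν : Measure (Euc d)) {U : Set (Euc d)} (hU : IsOpen U) {V η : ℝ}
    (hV0 : 0 ≤ V) (hV : ν U = ENNReal.ofReal V) (hη : 0 < η) :
    ∀ᶠ m : ℕ in atTop, ENNReal.ofReal (V - η)
      ≤ ν {z | ‖z‖ ≤ m ∧ Metric.ball z (1 / (m + 1 : ℝ)) ⊆ U} := by
  have hmono : Monotone fun m : ℕ =>
      {z : Euc d | ‖z‖ ≤ m ∧ Metric.ball z (1 / (m + 1 : ℝ)) ⊆ U} := by
    intro a b hab z hz
    have : (a : ℝ) ≤ b := by exact_mod_cast hab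
    refine ⟨hz.1.trans this, (Metric.ball_subset_ball ?_).trans hz.2⟩
    exact one_div_le_one_div_of_le (by positivity) (by linarith)
  have hun : ⋃ m : ℕ, {z : Euc d | ‖z‖ ≤ m ∧ Metric.ball z (1 / (m + 1 : ℝ)) ⊆ U} = U := by
    apply Subset.antisymm
    · intro z hz
      obtain ⟨m, hm⟩ := mem_iUnion.1 hz
      exact hm.2 (Metric.mem_ball_self (by positivity))
    · intro z hz
      obtain ⟨r, hr, hrU⟩ := Metric.isOpen_iff.1 hU z hz
      obtain ⟨a, ha⟩ := exists_nat_one_div_lt hr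
      obtain ⟨b, hb⟩ := exists_nat_ge ‖z‖
      refine mem_iUnion.2 ⟨max a b, ?_, ?_⟩
      · exact hb.trans (by exact_mod_cast le_max_right a b)
      · refine (Metric.ball_subset_ball (le_trans ?_ ha.le)).trans hrU
        have : (a : ℝ) ≤ (max a b : ℕ) := by exact_mod_cast le_max_left a b
        exact one_div_le_one_div_of_le (by positivity) (by linarith)
  have ht := tendsto_measure_iUnion_atTop (μ := ν) hmono
  rw [hun, hV] at ht
  rcases eq_or_lt_of_le hV0 with h0 | h0
  · refine Eventually.of_forall fun m => ?_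
    rw [ENNReal.ofReal_of_nonpos (by linarith)]
    exact zero_le
  · exact ht.eventually (eventually_ge_nhds ((ENNReal.ofReal_lt_ofReal_iff h0).2 (by linarith)))

theorem meas_area_le {a A η : ℝ} (hA0 : 0 ≤ A) (hη : 0 < η) {l τ : ℝ≥0∞}
    (hl : l ≤ ENNReal.ofReal A) (hτ : τ ≤ ENNReal.ofReal (η / 4))
    (h : ENNReal.ofReal a ≤ ENNReal.ofReal (1 + η / (2 * (A + η))) * (l + 2 * τ)) :
    a ≤ A + η := by
  have hp : 0 < η / (2 * (A + η)) := by positivity
  have h1 : ENNReal.ofReal a ≤ ENNReal.ofReal ((1 + η / (2 * (A + η))) * (A + 2 * (η / 4))) := by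
    rw [ENNReal.ofReal_mul (by positivity), ENNReal.ofReal_add hA0 (by positivity),
      ENNReal.ofReal_mul (by norm_num), ENNReal.ofReal_ofNat]
    refine h.trans ?_
    gcongr
  have h2 := (ENNReal.ofReal_le_ofReal_iff (by positivity)).1 h1
  have h3 : η / (2 * (A + η)) * (A + 2 * (η / 4)) ≤ η / 2 := by
    rw [div_mul_eq_mul_div, div_le_div_iff₀ (by positivity) (by norm_num)]
    nlinarith
  nlinarith

/-- cycles approximating the boundary of `E` (possibly unbounded) -/
theorem exists_slices (hn : n ≠ 0) (G : Geo σ (n + 1) S X j) {E : Set (Euc N)} (hES : E ⊆ S)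
    (hopen : ∃ U : Set (Euc N), IsOpen U ∧ E = S ∩ U) {V A : ℝ} (hV0 : 0 ≤ V) (hA0 : 0 ≤ A)
    (hV : euclideanHausdorffMeasure (n + 1) E = ENNReal.ofReal V)
    (hA : euclideanHausdorffMeasure n (relBoundary S E) ≤ ENNReal.ofReal A) {η : ℝ} (hη : 0 < η) :
    ∃ (x : X) (R : ℝ), 0 ≤ R ∧ ∃ c : Ch (Metric.closedBall x R) n, c.IsCyc ∧ c.area ≤ A + η ∧
      ∀ T, IsBd T c → V - η ≤ T.area := by
  haveI := G.proper
  obtain ⟨x₀⟩ := G.nonempty
  obtain ⟨e, h⟩ := G.chart x₀
  obtain ⟨hU, himg, -, lam, hlam, hB⟩ := meas_setup G h hES hopen hA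
  haveI : IsFiniteMeasure lam := ⟨hlam.trans_lt ENNReal.ofReal_lt_top⟩
  set U := (j ∘ e) ⁻¹' E
  set ν : Measure (Euc (n + 1)) :=
    volume.withDensity fun v => ENNReal.ofReal (Jm (fderiv ℝ (j ∘ e) v)) with hν
  have hνU : ν U = ENNReal.ofReal V := by
    rw [hν, withDensity_apply', ← h.muHE' G hU.measurableSet, himg, hV]
  have htail : ∀ᶠ m : ℕ in atTop, ν (U \ Metric.ball 0 m) ≤ ENNReal.ofReal (η / 4) := by
    have hanti : Antitone fun m : ℕ => U \ Metric.ball (0 : Euc (n + 1)) m := fun a b hab =>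
      diff_subset_diff_right (Metric.ball_subset_ball (by exact_mod_cast hab))
    have ht := tendsto_measure_iInter_atTop (μ := ν)
      (fun m : ℕ => (hU.measurableSet.diff Metric.isOpen_ball.measurableSet).nullMeasurableSet)
      hanti ⟨0, ne_top_of_le_ne_top (hνU ▸ ENNReal.ofReal_ne_top) (measure_mono diff_subset)⟩
    have he : ⋂ m : ℕ, U \ Metric.ball (0 : Euc (n + 1)) m = ∅ := by
      refine eq_empty_of_forall_notMem fun z hz => ?_
      obtain ⟨b, hb⟩ := exists_nat_gt ‖z‖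
      exact (mem_iInter.1 hz b).2 (mem_ball_zero_iff.2 hb)
    rw [he, measure_empty] at ht
    exact ht.eventually (eventually_le_nhds (ENNReal.ofReal_pos.2 (by positivity)))
  obtain ⟨m, hm1, hm2⟩ := ((meas_exhaust ν hU hV0 hνU hη).and htail).exists
  have hR : (0 : ℝ) < m + 3 := by positivity
  obtain ⟨p, hp⟩ := h.exists_BC G hR
  haveI : CompactSpace (Metric.closedBall x₀ (m + 3 : ℝ)) :=
    isCompact_iff_compactSpace.1 (isCompact_closedBall _ _)
  obtain ⟨W, c, -, -, hcyc, harea, -, hin, -, hcal⟩ := hp.exists_W hR hU (hB _)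
    (ε := η / (2 * (A + η))) (r₀ := 1 / (m + 1 : ℝ)) (by positivity) (by positivity)
  refine ⟨x₀, m + 3, hR.le, c, hcyc, meas_area_le hA0 hη hlam ?_ harea, fun T hT => ?_⟩
  · rw [add_sub_cancel_right, ← withDensity_apply']
    exact hm2
  · have h1 := hcal T hT
    rw [← withDensity_apply'] at h1
    refine (ENNReal.ofReal_le_ofReal_iff T.area_nonneg).1 (hm1.trans (le_trans (measure_mono ?_) h1))
    exact fun z hz => hin z (hz.1.trans (by linarith)) hz.2

/-- the same for relatively compact `E`, in a fixed ball, with the rigidity information -/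
theorem exists_slices_seq (hn : n ≠ 0) (G : Geo σ (n + 1) S X j) {E : Set (Euc N)} (hES : E ⊆ S)
    (hE : IsCompact (closure E)) (hclosed : IsClosed S)
    (hopen : ∃ U : Set (Euc N), IsOpen U ∧ E = S ∩ U) {V A : ℝ} (hV0 : 0 < V) (hA0 : 0 ≤ A)
    (hV : euclideanHausdorffMeasure (n + 1) E = ENNReal.ofReal V)
    (hA : euclideanHausdorffMeasure n (relBoundary S E) ≤ ENNReal.ofReal A) :
    ∃ (x : X) (R : ℝ), 0 ≤ R ∧ ∃ c : ℕ → Ch (Metric.closedBall x R) n, (∀ i, (c i).IsCyc) ∧
      (∀ i, (c i).area ≤ A + 1 / (i + 1 : ℝ)) ∧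
      (∀ i T, IsBd T (c i) → V - 1 / (i + 1 : ℝ) ≤ T.area) ∧
      ∀ (φ : ℕ → ℕ) (x₀ : Metric.closedBall x R) (ρ : ℝ), StrictMono φ → 0 < ρ →
        Conc (fun i => c (φ i)) x₀ ρ →
        euclideanHausdorffMeasure (n + 1) (symmDiff E (j '' Metric.ball (x₀ : X) ρ)) = 0 := by
  haveI := G.proper
  obtain ⟨x₀⟩ := G.nonempty
  obtain ⟨e, h⟩ := G.chart x₀
  obtain ⟨hU, himg, hfr, lam, hlam, hB⟩ := meas_setup G h hES hopen hA
  haveI : IsFiniteMeasure lam := ⟨hlam.trans_lt ENNReal.ofReal_lt_top⟩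
  set U := (j ∘ e) ⁻¹' E with hUdef
  set ν : Measure (Euc (n + 1)) :=
    volume.withDensity fun v => ENNReal.ofReal (Jm (fderiv ℝ (j ∘ e) v)) with hν
  have hνU : ν U = ENNReal.ofReal V := by
    rw [hν, withDensity_apply', ← h.muHE' G hU.measurableSet, himg, hV]
  have hne : U.Nonempty := by
    refine nonempty_of_measure_ne_zero (μ := ν) ?_
    rw [hνU]
    exact (ENNReal.ofReal_pos.2 hV0).ne'
  have hb : Bornology.IsBounded U := by
    have hind : IsInducing (j ∘ e) := G.emb.isInducing.comp e.isInducing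
    have hr : range (j ∘ e) = S := by rw [e.surjective.range_comp, G.range_eq]
    exact ((hind.isCompact_preimage (hr ▸ hclosed) hE).isBounded).subset
      (preimage_mono subset_closure)
  obtain ⟨R₀, hR₀, hUR⟩ := hb.subset_ball_lt 0 0
  have hR : (0 : ℝ) < R₀ + 3 := by positivity
  obtain ⟨p, hp⟩ := h.exists_BC G hR
  haveI : CompactSpace (Metric.closedBall x₀ (R₀ + 3 : ℝ)) :=
    isCompact_iff_compactSpace.1 (isCompact_closedBall _ _)
  have hm : ∀ i : ℕ, ∃ m : ℕ, i ≤ m ∧ ENNReal.ofReal (V - 1 / (i + 1 : ℝ))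
      ≤ ν {z | ‖z‖ ≤ m ∧ Metric.ball z (1 / (m + 1 : ℝ)) ⊆ U} := fun i =>
    ((eventually_ge_atTop i).and (meas_exhaust ν hU hV0.le hνU (by positivity))).exists
  choose m hmi hm using hm
  have hW := fun i : ℕ => hp.exists_W hR hU (hB _)
    (ε := (1 / (i + 1 : ℝ)) / (2 * (A + 1 / (i + 1 : ℝ)))) (r₀ := 1 / (m i + 1 : ℝ))
    (by positivity) (by positivity)
  choose W c hWm hWb hcyc harea hact hin hout hcal using hW
  have hnorm : ∀ z ∈ U, ‖z‖ ≤ R₀ + 3 - 2 := fun z hz => by
    have := mem_ball_zero_iff.1 (hUR hz)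
    linarith
  refine ⟨x₀, R₀ + 3, hR.le, c, hcyc, fun i => meas_area_le hA0 (by positivity) hlam ?_ (harea i),
    fun i T hT => ?_, fun φ y₁ ρ hφ hρ hc => ?_⟩
  · rw [add_sub_cancel_right, diff_eq_empty.2 hUR]
    simp
  · have h1 := hcal i T hT
    rw [← withDensity_apply'] at h1
    refine (ENNReal.ofReal_le_ofReal_iff T.area_nonneg).1
      ((hm i).trans (le_trans (measure_mono ?_) h1))
    exact fun z hz => hin i z (hnorm z (hz.2 (Metric.mem_ball_self (by positivity)))) hz.2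
  · have hsmall : ∀ r > 0, ∀ᶠ i in atTop, 1 / (m (φ i) + 1 : ℝ) ≤ r := fun r hr => by
      obtain ⟨a, ha⟩ := exists_nat_one_div_lt hr
      filter_upwards [eventually_ge_atTop a] with i hi
      have : (a : ℝ) ≤ m (φ i) := by exact_mod_cast hi.trans ((hφ.id_le i).trans (hmi _))
      exact le_trans (one_div_le_one_div_of_le (by positivity) (by linarith)) ha.le
    have hlim : ∀ᵐ z, ∀ᶠ i in atTop, z ∈ W (φ i) ↔ z ∈ U := by
      filter_upwards [measure_eq_zero_iff_ae_notMem.1 hfr] with z hz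
      by_cases hzU : z ∈ U
      · obtain ⟨r, hr, hrU⟩ := Metric.isOpen_iff.1 hU z hzU
        filter_upwards [hsmall r hr] with i hi
        exact iff_of_true (hin _ z (hnorm z hzU) ((Metric.ball_subset_ball hi).trans hrU)) hzU
      · have hcl : z ∈ (closure U)ᶜ := fun hcl => hz ⟨hcl, fun hi => hzU (interior_subset hi)⟩
        obtain ⟨r, hr, hrU⟩ := Metric.isOpen_iff.1 isClosed_closure.isOpen_compl z hcl
        filter_upwards [hsmall r hr] with i hi
        refine iff_of_false (fun hzW => hout _ z hzW ?_) hzU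
        exact disjoint_left.2 fun y hy hyU =>
          hrU (Metric.ball_subset_ball hi hy) (subset_closure hyU)
    have hO : IsOpen {z | dist (e z) (y₁ : X) ≠ ρ} :=
      isOpen_ne_fun (e.continuous.dist continuous_const) continuous_const
    have hsub := subset_interior_of_weak hU hO fun ψ hψ hs hsupp w =>
      hp.weak_zero hU.measurableSet (fun i => hWm (φ i)) (fun i => hWb (φ i))
        (fun i => hact (φ i)) hlim hc hψ hs (fun y hy => by
          refine image_eq_zero_of_notMem_tsupport fun hmem => hsupp hmem ?_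
          rw [e.apply_symm_apply]
          exact hy) w
    have hfin := h.symmDiff_null hn G hU hb hne hfr (y₁ : X) hρ hsub
    rwa [image_symmDiff (G.emb.injective.comp e.injective), himg, image_comp,
      e.surjective.image_preimage] at hfin

end Crest.Agent.R241
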