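import Crest.Agent.R241.Sum
import Crest.Agent.R241.SF.Mult

/-!
# Block D: chains are integer rectifiable currents.  Owner file; helpers in `R241/SF/*`.
See `notes241/R241.md`, section D.
-/

open MeasureTheory Set Filter Topology
open Crest.GeometryTopology.MetricCurrent
open Crest.GeometryTopology.Submanifold (Euc unitBallVol unitSphereArea)
open scoped ENNReal NNReal InnerProductSpace

noncomputable section

namespace Crest.Agent.R241

universe u

variable {X : Type u} [MetricSpace X] [MeasurableSpace X] [BorelSpace X] {k : ℕ}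

theorem Ch.controls (c : Ch X k) : Controls c.cur (c.par.map c.pt) := by
  intro f π h hπ
  have hf : Continuous f := Lip.continuous h.1
  rw [Ch.cur, if_pos h, integral_map c.aemeasurable_pt hf.abs.aestronglyMeasurable]
  simpa using c.abs_act_le h hπ

omit [MeasurableSpace X] [BorelSpace X] in
theorem sf_update {f g : X → ℝ} {π : Fin k → X → ℝ} (h : IsTestPair f π) (i : Fin k) (hg : Lip g) :
    IsTestPair f (Function.update π i g) := by
  refine ⟨h.1, h.2.1, fun a => ?_⟩
  rcases eq_or_ne a i with rfl | ha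
  · rw [Function.update_self]; exact hg
  · rw [Function.update_of_ne ha]; exact h.2.2 a

theorem Ch.isCurrent (c : Ch X k) : IsCurrent c.cur where
  eq_zero_of_not_test f π h := if_neg h
  add_left f g π hf hg := by
    obtain ⟨C, hC⟩ := hf.2.1
    obtain ⟨D, hD⟩ := hg.2.1
    have h : IsTestPair (f + g) π := ⟨Lip.add hf.1 hg.1,
      ⟨C + D, fun x => (abs_add_le _ _).trans (add_le_add (hC x) (hD x))⟩, hf.2.2⟩
    simp only [Ch.cur, if_pos h, if_pos hf, if_pos hg]
    exact c.act_add_left hf hg
  smul_left a f π hf := by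
    obtain ⟨C, hC⟩ := hf.2.1
    have h : IsTestPair (a • f) π := ⟨Lip.const_mul a hf.1, ⟨|a| * C, fun x =>
      (abs_mul _ _).trans_le (mul_le_mul_of_nonneg_left (hC x) (abs_nonneg a))⟩, hf.2.2⟩
    simp only [Ch.cur, if_pos h, if_pos hf]
    exact c.act_const_mul_left a f π
  add_coord f π i g hf hg := by
    have h : IsTestPair f (Function.update π i (π i + g)) := sf_update hf i (Lip.add (hf.2.2 i) hg)
    simp only [Ch.cur, if_pos h, if_pos hf, if_pos (sf_update hf i hg)]
    have := c.act_update_add hf i (hf.2.2 i) hg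
    rwa [Function.update_eq_self] at this
  smul_coord f π i a hf := by
    have h : IsTestPair f (Function.update π i (a • π i)) := sf_update hf i (Lip.const_mul a (hf.2.2 i))
    simp only [Ch.cur, if_pos h, if_pos hf]
    have := c.act_update_const_mul f (π := π) i a (hf.2.2 i)
    rwa [Function.update_eq_self] at this
  continuity f π πs hf hC hl := by
    obtain ⟨C, hC⟩ := hC
    obtain ⟨D, hD⟩ := hf.2.1
    have h : ∀ j, IsTestPair f (πs j) := fun j => ⟨hf.1, hf.2.1, fun i => ⟨C, hC j i⟩⟩
    simp only [Ch.cur, if_pos (h _), if_pos hf]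
    exact c.tendsto_act (f := fun _ => f) (fun _ => Lip.continuous hf.1) (fun _ => hD)
      (fun _ => tendsto_const_nhds) hC hl
  locality f π hf h := by
    obtain ⟨i, U, a, -, hU, ha⟩ := h
    rw [Ch.cur, if_pos hf]
    exact c.act_eq_zero_of_local (hf.2.2 i) fun y hy => ha y (hU hy)
  finite_mass := ⟨_, inferInstance, c.controls⟩

omit [BorelSpace X] in
theorem sf_mass_nonneg (T : Functional X k) : 0 ≤ mass T :=
  Real.sInf_nonneg fun _ ⟨_, _, _, h⟩ => h ▸ ENNReal.toReal_nonneg

theorem Ch.mass_le (c : Ch X k) : mass c.cur ≤ c.area := by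
  refine csInf_le ⟨0, fun _ ⟨_, _, _, h⟩ => h ▸ ENNReal.toReal_nonneg⟩ ⟨_, inferInstance, c.controls, ?_⟩
  rw [Measure.map_apply_of_aemeasurable c.aemeasurable_pt MeasurableSet.univ]
  rfl

theorem Ch.isSupportedIn (c : Ch X k) {K : Set X} (h : c.In K) : IsSupportedIn K c.cur := by
  intro f π hf h0
  rw [Ch.cur, if_pos hf, c.act_congr h (f' := fun y => 0 * f y) (π' := π) (fun y hy => by simp [h0 y hy])
    fun _ _ _ => rfl, c.act_const_mul_left, zero_mul]

theorem Ch.isIntegerRectifiable [ProperSpace X] (c : Ch X k) : IsIntegerRectifiable c.cur := by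
  obtain ⟨d, h1, h2, h3⟩ := c.exists_biLip
  have hI : ∀ l, MeasurableSet (d.φ l '' d.E l) := fun l =>
    (d.meas l).image_of_continuousOn_injOn (d.lip l).continuousOn (h2 l).injOn
  let Z := disjointed fun l => d.φ l '' d.E l
  have hZ : ∀ l, MeasurableSet (Z l) := MeasurableSet.disjointed hI
  have hin : ∀ l, (d.restr (Z l) (hZ l)).In (d.φ l '' (d.restr (Z l) (hZ l)).E l) := fun l i z hz => by
    obtain ⟨w, hw, e⟩ := disjointed_subset (fun l => d.φ l '' d.E l) l hz.2
    exact ⟨w, ⟨hw, show d.φ l w ∈ Z l from e ▸ hz.2⟩, e⟩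
  choose θ a1 a2 using fun l => (d.restr (Z l) (hZ l)).exists_mult (fun i => (h2 i).mono inter_subset_left)
    ((d.restr (Z l) (hZ l)).meas l) ((d.restr (Z l) (hZ l)).lip l) ((h2 l).mono inter_subset_left) (hin l)
  have n0 : ∀ l, NullMeasurableSet (d.pt ⁻¹' Z l) d.par := fun l => d.aemeasurable_pt.nullMeasurableSet_preimage (hZ l)
  have n1 : Pairwise (Function.onFun (AEDisjoint d.par) fun l => d.pt ⁻¹' Z l) := fun i j hij =>
    ((disjoint_disjointed _ hij).preimage d.pt).aedisjoint
  refine ⟨fun l => (d.restr (Z l) (hZ l)).E l, fun l => (d.restr (Z l) (hZ l)).φ l, θ,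
    fun l => ⟨(d.restr _ _).meas l, (h1 l).subset inter_subset_left⟩, fun l => ⟨1, (d.restr _ _).lip l⟩,
    fun l => (h2 l).mono inter_subset_left, a1, fun i j hij => (disjoint_disjointed (fun l => d.φ l '' d.E l) hij).mono ?_ ?_,
    fun l => a2 l ▸ Ch.isCurrent _, ?_, fun f π h => ?_⟩
  · rintro _ ⟨z, hz, rfl⟩
    exact hz.2
  · rintro _ ⟨z, hz, rfl⟩
    exact hz.2
  · simp only [a2]
    refine Summable.of_nonneg_of_le (fun _ => sf_mass_nonneg _) (fun l => Ch.mass_le _) ?_
    simp only [Ch.area_restr]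
    refine ENNReal.summable_toReal ?_
    rw [← measure_iUnion₀ n1 n0]
    exact measure_ne_top _ _
  · simp only [a2, Ch.cur, if_pos h, Ch.act_restr _ _ f h.2.2]
    rw [← h3 f π h, (hasSum_integral_iUnion_ae n0 n1 (d.integrable_act h).integrableOn).tsum_eq,
      Measure.restrict_eq_self_of_ae_mem]
    · rfl
    filter_upwards [d.ae_mem] with w hw
    rw [← preimage_iUnion, iUnion_disjointed]
    exact mem_iUnion.2 ⟨w.1, w.2, hw, rfl⟩

end Crest.Agent.R241
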