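import Crest.Agent.R241.Fill
import Crest.Agent.R241.Geo
import Crest.Agent.R241.Meas
import Crest.Agent.R241.SF
import Crest.Agent.R241.KB

/-!
# Final assembly.  Helper prefix `main_`.  See `notes241/R241.md`, section M.
-/

open MeasureTheory Set Filter Topology
open Crest.GeometryTopology.MetricCurrent
open Crest.GeometryTopology.Submanifold (Euc unitBallVol unitSphereArea)
open scoped ENNReal NNReal InnerProductSpace

noncomputable section

namespace Crest.Agent.R241

universe u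

open Crest.GeometryTopology.Submanifold

theorem main_fill_le {X : Type} [MetricSpace X] [ProperSpace X] [MeasurableSpace X] [BorelSpace X]
    {σ : ℝ} (hσ : 0 ≤ σ) (H : Hyp σ X) {x : X} {R : ℝ} {m : ℕ}
    {c : Ch (Metric.closedBall x R) (m + 1)} (hc : c.IsCyc) {W : ℝ}
    (h : ∀ T, IsBd T c → W ≤ T.area) : W ≤ Psi σ (m + 1) c.area := by
  have : CompactSpace (Metric.closedBall x R) :=
    isCompact_iff_compactSpace.1 (isCompact_closedBall x R)
  refine le_of_forall_pos_le_add fun η hη => ?_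
  obtain ⟨T, hT, hT'⟩ := fill hσ (H.closedBall hσ x R) m c hc η hη
  exact (h T hT).trans hT'

theorem s372
    (n N : ℕ) (hn : 2 ≤ n) (κ : ℝ) (hκ : κ ≤ 0) (S : Set (EuclideanSpace ℝ (Fin N)))
    (hS : IsSubmanifold n N S) (hclosed : IsClosed S) (hconn : IsConnected S)
    (hsc : SimplyConnectedSpace S)
    (hsec : ∀ p ∈ S, ∀ (f : EuclideanSpace ℝ (Fin n) → EuclideanSpace ℝ (Fin N))
      (V : Set (EuclideanSpace ℝ (Fin n))), IsLocalParam n N S p f V →
      ∀ u v : EuclideanSpace ℝ (Fin n), secNum f 0 u v ≤ κ * gramDet f 0 u v)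
    (E : Set (EuclideanSpace ℝ (Fin N))) (hES : E ⊆ S)
    (hopen : ∃ U : Set (EuclideanSpace ℝ (Fin N)), IsOpen U ∧ E = S ∩ U)
    (r : ℝ) (hr : 0 ≤ r)
    (hvol : MeasureTheory.Measure.euclideanHausdorffMeasure n E
      = ENNReal.ofReal (modelVolume n κ r)) :
    ENNReal.ofReal (modelArea n κ r)
      ≤ MeasureTheory.Measure.euclideanHausdorffMeasure (n - 1) (relBoundary S E) := by
  obtain ⟨m, rfl⟩ : ∃ m, n = m + 1 + 1 := ⟨n - 2, by omega⟩
  obtain ⟨X, _, j, G⟩ := exists_geo (m + 1 + 1) N κ hκ S hS hclosed hconn hsc hsec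
  borelize X
  have := G.proper
  have hσ : 0 ≤ -κ := neg_nonneg.2 hκ
  have hm : m + 1 ≠ 0 := Nat.succ_ne_zero m
  rw [Nat.add_sub_cancel]
  rcases eq_or_ne (MeasureTheory.Measure.euclideanHausdorffMeasure (m + 1) (relBoundary S E)) ⊤
    with htop | htop
  · rw [htop]; exact le_top
  obtain ⟨A, hA0, hA⟩ : ∃ A : ℝ, 0 ≤ A ∧
      MeasureTheory.Measure.euclideanHausdorffMeasure (m + 1) (relBoundary S E) = ENNReal.ofReal A :=
    ⟨_, ENNReal.toReal_nonneg, (ENNReal.ofReal_toReal htop).symm⟩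
  rw [hA]
  refine ENNReal.ofReal_le_ofReal ?_
  have key : ∀ η > 0, modelVolume (m + 1 + 1) κ r ≤ Psi (-κ) (m + 1) (A + η) + η := by
    intro η hη
    obtain ⟨x, R, -, c, hc, hca, hT⟩ := exists_slices hm G hES hopen
      (modelVolume_nonneg (m + 1) hκ hr) hA0 hvol hA.le hη
    have h1 := main_fill_le hσ G.hyp hc hT
    have h2 : Psi (-κ) (m + 1) c.area ≤ Psi (-κ) (m + 1) (A + η) :=
      (strictMonoOn_Psi hσ hm).monotoneOn c.area_nonneg (c.area_nonneg.trans hca) hca
    linarith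
  have h3 : Tendsto (fun η : ℝ => Psi (-κ) (m + 1) (A + η) + η) (𝓝[>] 0)
      (𝓝 (Psi (-κ) (m + 1) A + 0)) := by
    refine Tendsto.add ?_ (tendsto_nhdsWithin_of_tendsto_nhds tendsto_id)
    refine (continuousOn_Psi hσ hm A hA0).tendsto.comp (tendsto_nhdsWithin_iff.2 ⟨?_, ?_⟩)
    · have : Tendsto (fun η : ℝ => A + η) (𝓝 0) (𝓝 (A + 0)) := tendsto_const_nhds.add tendsto_id
      rw [add_zero] at this
      exact tendsto_nhdsWithin_of_tendsto_nhds this
    · filter_upwards [self_mem_nhdsWithin] with η hη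
      exact add_nonneg hA0 (le_of_lt hη)
  have h4 : modelVolume (m + 1 + 1) κ r ≤ Psi (-κ) (m + 1) A + 0 :=
    ge_of_tendsto h3 (by filter_upwards [self_mem_nhdsWithin] with η hη using key η hη)
  rw [add_zero, ← Psi_model hκ hm hr] at h4
  exact ((strictMonoOn_Psi hσ hm).le_iff_le (modelArea_nonneg (m + 1) hκ hr) hA0).1 h4

theorem s373
    (n N : ℕ) (hn : 2 ≤ n) (S : Set (EuclideanSpace ℝ (Fin N)))
    (hS : IsSubmanifold n N S) (hclosed : IsClosed S) (hconn : IsConnected S)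
    (hsc : SimplyConnectedSpace S)
    (hsec : ∀ p ∈ S, ∀ (f : EuclideanSpace ℝ (Fin n) → EuclideanSpace ℝ (Fin N))
      (V : Set (EuclideanSpace ℝ (Fin n))), IsLocalParam n N S p f V →
      ∀ u v : EuclideanSpace ℝ (Fin n), secNum f 0 u v ≤ 0)
    (E : Set (EuclideanSpace ℝ (Fin N))) (hES : E ⊆ S) (hE : IsCompact (closure E))
    (hopen : ∃ U : Set (EuclideanSpace ℝ (Fin N)), IsOpen U ∧ E = S ∩ U)
    (r : ℝ) (hr : 0 < r)
    (hvol : MeasureTheory.Measure.euclideanHausdorffMeasure n E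
      = ENNReal.ofReal (modelVolume n 0 r))
    (harea : MeasureTheory.Measure.euclideanHausdorffMeasure (n - 1) (relBoundary S E)
      = ENNReal.ofReal (modelArea n 0 r)) :
    ∃ U : Set (EuclideanSpace ℝ (Fin N)), IsOpen U ∧
      MeasureTheory.Measure.euclideanHausdorffMeasure n (symmDiff E (S ∩ U)) = 0 ∧
      ∃ φ : EuclideanSpace ℝ (Fin n) → EuclideanSpace ℝ (Fin N),
        ContDiffOn ℝ (⊤ : ℕ∞) φ (Metric.ball 0 r) ∧ Set.InjOn φ (Metric.ball 0 r) ∧
        φ '' Metric.ball 0 r = S ∩ U ∧ ∀ x ∈ Metric.ball 0 r, metricMat φ x = 1 := by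
  obtain ⟨m, rfl⟩ : ∃ m, n = m + 1 + 1 := ⟨n - 2, by omega⟩
  obtain ⟨X, _, j, G⟩ := exists_geo (m + 1 + 1) N 0 le_rfl S hS hclosed hconn hsc
    (fun p hp f V h u v => by rw [zero_mul]; exact hsec p hp f V h u v)
  rw [neg_zero] at G
  borelize X
  have := G.proper
  have hm : m + 1 ≠ 0 := Nat.succ_ne_zero m
  rw [Nat.add_sub_cancel] at harea
  have hPsi := Psi_model (κ := 0) le_rfl hm hr.le
  rw [neg_zero] at hPsi
  have hA : 0 < modelArea (m + 1 + 1) 0 r := by
    rw [modelArea_zero]; exact mul_pos (sph_pos _) (pow_pos hr _)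
  have hV : 0 < modelVolume (m + 1 + 1) 0 r := by
    rw [modelVolume_zero]; exact mul_pos (om_pos _) (pow_pos hr _)
  obtain ⟨x, R, -, c, hc, hca, hT, hrig⟩ := exists_slices_seq hm G hES hE hclosed hopen hV hA.le
    hvol harea.le
  have : CompactSpace (Metric.closedBall x R) :=
    isCompact_iff_compactSpace.1 (isCompact_closedBall x R)
  have h0 : ∀ η > 0, ∀ᶠ i : ℕ in atTop, 1 / (i + 1 : ℝ) < η := fun η hη =>
    tendsto_one_div_add_atTop_nhds_zero_nat.eventually (gt_mem_nhds hη)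
  have hSM := strictMonoOn_Psi (σ := 0) le_rfl hm
  have ha : Tendsto (fun i => (c i).area) atTop (𝓝 (modelArea (m + 1 + 1) 0 r)) := by
    refine tendsto_order.2 ⟨fun a ha => ?_, fun a ha => ?_⟩
    · rcases lt_or_ge a 0 with ha0 | ha0
      · exact Eventually.of_forall fun i => ha0.trans_le (c i).area_nonneg
      have h1 := hSM ha0 hA.le ha
      filter_upwards [h0 _ (sub_pos.2 h1)] with i hi
      have h2 := main_fill_le le_rfl G.hyp (hc i) (hT i)
      exact (hSM.lt_iff_lt ha0 (c i).area_nonneg).1 (by linarith)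
    · filter_upwards [h0 _ (sub_pos.2 ha)] with i hi
      linarith [hca i]
  obtain ⟨φ, x₀, hφ, hconc⟩ := conc_of_tight (G.hyp.closedBall le_rfl x R) m hA hc ha
    (fun η hη => by
      filter_upwards [h0 η hη] with i hi T hTi
      linarith [hT i T hTi])
  have hρ : (modelArea (m + 1 + 1) 0 r / sph (m + 1)) ^ (1 / ((m + 1 : ℕ) : ℝ)) = r := by
    rw [modelArea_zero, mul_div_cancel_left₀ _ (sph_pos _).ne', one_div,
      Real.pow_rpow_inv_natCast hr.le hm]
  rw [hρ] at hconc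
  have hnull := hrig φ x₀ r hφ hr hconc
  obtain ⟨e, he⟩ := G.chart (x₀ : X)
  obtain ⟨U, hU, hUe⟩ := G.emb.isInducing.image_eq_isOpen_inter_range
    (Metric.isOpen_ball (x := (x₀ : X)) (ε := r))
  rw [G.range_eq, inter_comm] at hUe
  have himg : (j ∘ e) '' Metric.ball 0 r = j '' Metric.ball (x₀ : X) r := by
    rw [image_comp]
    congr 1
    ext y
    obtain ⟨v, rfl⟩ := e.surjective y
    rw [e.injective.mem_set_image, Metric.mem_ball, Metric.mem_ball, he.dist_eq, dist_zero_right]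
  refine ⟨U, hU, hUe ▸ hnull, j ∘ e, he.smooth.contDiffOn,
    (G.emb.injective.comp e.injective).injOn, himg.trans hUe, he.rigid G hr ?_⟩
  rw [himg, ← measure_congr (measure_symmDiff_eq_zero_iff.1 hnull), hvol, modelVolume_zero]

/-- the cone radii of a tight sequence -/
theorem main_b_rad {Y : Type u} [MetricSpace Y] [CompactSpace Y] [MeasurableSpace Y] [BorelSpace Y]
    (H : Hyp 0 Y) (m : ℕ) {M : ℝ} (hM : 0 ≤ M) {d : ℕ → Ch Y (m + 1)} (hc : ∀ i, (d i).IsCyc)
    (ha : Tendsto (fun i => (d i).area) atTop (𝓝 M))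
    (ht : ∀ i S, IsBd S (d i) → Psi 0 (m + 1) M ≤ S.area) :
    ∃ (φ : ℕ → ℕ) (x : Y), Tendsto (fun j =>
      (∫ w, dist ((d (φ j)).pt w) x ∂(d (φ j)).par) / (((m + 1 : ℕ) : ℝ) + 1)) atTop
        (𝓝 (Psi 0 (m + 1) M)) := by
  rcases hM.eq_or_lt with rfl | hM
  · refine ⟨id, (d 0).φ 0 0, ?_⟩
    rw [Psi_zero, ← zero_div (((m + 1 : ℕ) : ℝ) + 1)]
    refine Tendsto.div_const ?_ _
    refine squeeze_zero (fun j => integral_nonneg fun w => dist_nonneg) (fun j => ?_)
      (by simpa using ha.mul_const (Metric.diam (univ : Set Y)))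
    have := integral_mono ((d j).integrable_comp_pt (Lip.dist_left ((d 0).φ 0 0)).continuous)
      (integrable_const (Metric.diam (univ : Set Y))) fun w =>
        Metric.dist_le_diam_of_mem isCompact_univ.isBounded (mem_univ _) (mem_univ _)
    simpa [Ch.area] using this
  · obtain ⟨φ, x, hφ, hx⟩ := conc_of_tight H m hM hc ha fun η hη =>
      Eventually.of_forall fun i S hS => (ht i S hS).trans (by linarith)
    set ρ := (M / sph (m + 1)) ^ (1 / ((m + 1 : ℕ) : ℝ)) with hρ
    refine ⟨φ, x, ?_⟩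
    have h1 := hx (fun y => dist y x - ρ) (by fun_prop) fun y hy => sub_eq_zero.2 hy
    have h2 := (h1.add ((ha.comp hφ.tendsto_atTop).mul_const ρ)).div_const (((m + 1 : ℕ) : ℝ) + 1)
    have e : Psi 0 (m + 1) M = (0 + M * ρ) / (((m + 1 : ℕ) : ℝ) + 1) := by
      have hn : (0 : ℝ) < ((m + 1 : ℕ) : ℝ) := by positivity
      have hs := Real.rpow_pos_of_pos (sph_pos (m + 1)) (1 / ((m + 1 : ℕ) : ℝ))
      rw [Psi_zero_left (by omega) hM.le, hρ, Real.div_rpow hM.le (sph_pos _).le, add_div,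
        div_self hn.ne', Real.rpow_add hM, Real.rpow_one]
      field_simp
      ring
    rw [e]
    refine h2.congr fun j => ?_
    rw [integral_sub ((d (φ j)).integrable_comp_pt (Lip.dist_left x).continuous)
      (integrable_const ρ)]
    simp [Ch.area]

/-- a sequence of chains representing the same cycle, with areas tending to `M`, has a filling of
mass `≤ Ψ₀ M` -/
theorem main_b_fill {Y : Type u} [MetricSpace Y] [CompactSpace Y] [MeasurableSpace Y] [BorelSpace Y]
    (H : Hyp 0 Y) (m : ℕ) {M : ℝ} (hM : 0 ≤ M) {d : ℕ → Ch Y (m + 1)} (hc : ∀ i, (d i).IsCyc)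
    (ha : Tendsto (fun i => (d i).area) atTop (𝓝 M)) (hcur : ∀ i, (d i).cur = (d 0).cur)
    {X : Type u} [MetricSpace X] [MeasurableSpace X] [BorelSpace X] (p : Y → X)
    (hp : LipschitzWith 1 p) :
    ∃ (i : ℕ) (S : Ch Y (m + 2)), IsBd S (d i) ∧ mass (S.push p hp).cur ≤ Psi 0 (m + 1) M := by
  by_cases h : ∃ i S, IsBd S (d i) ∧ S.area ≤ Psi 0 (m + 1) M
  · obtain ⟨i, S, hS, h⟩ := h
    exact ⟨i, S, hS, (S.push p hp).mass_le.trans h⟩
  push Not at h
  obtain ⟨φ, x, hx⟩ := main_b_rad H m hM hc ha fun i S hS => (h i S hS).le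
  obtain ⟨C, hC⟩ := exists_cone H x (m + 1)
  choose S hS hSC hSa using fun j : ℕ =>
    hC (d (φ j)) (hc _) (1 / ((j : ℝ) + 1)) Nat.one_div_pos_of_nat
  have e : ∀ j, ((S 0).push p hp).cur = ((S j).push p hp).cur := fun j => by
    funext f π
    unfold Ch.cur
    split_ifs with h
    · have h1 := isTestPair_comp h hp
      have h2 : (S 0).cur = (S j).cur := by rw [hSC, hSC, hcur, hcur (φ j)]
      have h3 := congrFun (congrFun h2 fun y => f (p y)) fun a y => π a (p y)
      rwa [Ch.cur, Ch.cur, if_pos h1, if_pos h1] at h3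
    · rfl
  refine ⟨φ 0, S 0, hS 0, ge_of_tendsto'
    (by simpa using hx.add tendsto_one_div_add_atTop_nhds_zero_nat) fun j => ?_⟩
  rw [e j]
  simpa using (((S j).push p hp).mass_le.trans (hSa j))

theorem s374
    (X : Type u) [MetricSpace X] [MeasurableSpace X] [BorelSpace X] [ProperSpace X]
    (hX : IsCATZero X) (m : ℕ) (T : Functional X (m + 2)) (hT : IsIntegralCurrent T)
    (hcyc : bd T = 0) (K : Set X) (hK : IsCompact K) (hTK : IsSupportedIn K T) :
    ∃ (S : Functional X (m + 3)) (K' : Set X), IsIntegralCurrent S ∧ IsCompact K' ∧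
      IsSupportedIn K' S ∧ bd S = T ∧
      mass S ≤ 1 / ((m + 3 : ℝ) *
            (((m + 3 : ℝ) * (volume (Metric.ball (0 : EuclideanSpace ℝ (Fin (m + 3))) 1)).toReal) ^
              (1 / (m + 2 : ℝ)))) *
          mass T ^ ((m + 3 : ℝ) / (m + 2 : ℝ)) := by
  have H : Hyp 0 X := hyp_of_catZero hX
  have hη : ∀ i : ℕ, (0 : ℝ) < 1 / ((i : ℝ) + 1) := fun i => Nat.one_div_pos_of_nat
  choose c hcT hcK hca using fun i : ℕ =>
    exists_ch_of_rect H hT.1 hT.2.1 hK.isClosed hTK (hη i)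
  obtain ⟨R, hR, hKR⟩ := hK.isBounded.subset_closedBall_lt 0 ((c 0).φ 0 0)
  set x₀ : X := (c 0).φ 0 0
  have : CompactSpace (Metric.closedBall x₀ R) :=
    isCompact_iff_compactSpace.1 (isCompact_closedBall x₀ R)
  obtain ⟨P, hP, hPy⟩ := H.exists_retr le_rfl x₀ hR.le
  have hv : LipschitzWith 1 (Subtype.val : Metric.closedBall x₀ R → X) := LipschitzWith.subtype_val _
  have hact : ∀ i f π, IsTestPair f π → (c i).act f π = T f π := fun i f π h => by
    rw [← hcT i, Ch.cur, if_pos h]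
  have hM : 0 ≤ mass T := Real.sInf_nonneg (by rintro _ ⟨μ, -, -, rfl⟩; exact ENNReal.toReal_nonneg)
  have ha : Tendsto (fun i => ((c i).push P hP).area) atTop (𝓝 (mass T)) := by
    refine tendsto_of_tendsto_of_tendsto_of_le_of_le tendsto_const_nhds ?_
      (fun i => hcT i ▸ (c i).mass_le) hca
    simpa using tendsto_one_div_add_atTop_nhds_zero_nat.const_add (mass T)
  have hc : ∀ i, ((c i).push P hP).IsCyc := fun i π hπ => by
    have h1 : IsTestPair (fun y => π 0 (P y)) fun (a : Fin (m + 1)) y => π a.succ (P y) :=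
      isTestPair_comp (isTestPair_iff.2 ⟨hπ 0, fun a => hπ a.succ⟩) hP
    have h2 := congrFun (congrFun hcyc fun y => π 0 (P y)) fun (a : Fin (m + 1)) y => π a.succ (P y)
    rw [bd, if_pos h1] at h2
    have h3 : (fun a y => π a (P y)) =
        Fin.cons (fun y => π 0 (P y)) fun (a : Fin (m + 1)) y => π a.succ (P y) :=
      (Fin.cons_self_tail fun a y => π a (P y)).symm
    rw [Ch.act_push, h3, hact i _ _ (isTestPair_cons h1)]
    exact h2
  have hcur : ∀ i, ((c i).push P hP).cur = ((c 0).push P hP).cur := fun i => by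
    funext f π
    unfold Ch.cur
    split_ifs with h
    · rw [Ch.act_push, Ch.act_push, hact _ _ _ (isTestPair_comp h hP),
        hact _ _ _ (isTestPair_comp h hP)]
    · rfl
  obtain ⟨i, S, hS, hm⟩ := main_b_fill (H.closedBall le_rfl x₀ R) (m + 1) hM hc ha hcur
    Subtype.val hv
  have hbd : bd (S.push Subtype.val hv).cur = T := by
    funext f π
    unfold bd
    split_ifs with h
    · rw [Ch.cur, if_pos (isTestPair_cons h), hS.push Subtype.val hv f π h, Ch.act_push,
        Ch.act_push, ← hact i f π h]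
      exact (c i).act_congr (hcK i) (fun y hy => congrArg f (hPy y (hKR hy)))
        fun a y hy => congrArg (π a) (hPy y (hKR hy))
    · exact (hT.1.eq_zero_of_not_test f π h).symm
  refine ⟨_, Metric.closedBall x₀ R, ⟨Ch.isCurrent _, Ch.isIntegerRectifiable _, hbd.symm ▸ hT.1⟩,
    isCompact_closedBall _ _, Ch.isSupportedIn _ (S.push_in _ hv S.in_univ fun y _ => y.2), hbd,
    hm.trans (le_of_eq ?_)⟩
  rw [Psi_zero_left (by omega) hM, sph_eq]
  unfold om unitBallVol
  push_cast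
  have e1 : (m : ℝ) + 1 + 1 = m + 2 := by ring
  have e2 : (m : ℝ) + 2 + 1 = m + 3 := by ring
  simp only [e1, e2]

end Crest.Agent.R241
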