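import Crest.Agent.R241.N1.Cross

/-!
# Block N1: the core for curves (`n = 1`).  Owner file; helpers in `R241/N1/*`.
See `notes241/R241.md`, section N1.
-/

open MeasureTheory Set Filter Topology
open Crest.GeometryTopology.MetricCurrent
open Crest.GeometryTopology.Submanifold (Euc unitBallVol unitSphereArea)
open scoped ENNReal NNReal InnerProductSpace

noncomputable section

namespace Crest.Agent.R241

universe u

variable {X : Type u} [MetricSpace X] [CompactSpace X] [MeasurableSpace X] [BorelSpace X]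
  {Ω : Type u} [MeasurableSpace Ω] {σ Λ : ℝ} {n : ℕ}

/-- Wirtinger's inequality from the crossing property -/
theorem wirtinger_cross {Ω : Type*} [MeasurableSpace Ω] (ν : Measure Ω) [IsFiniteMeasure ν]
    {u g : Ω → ℝ} (hu : Measurable u) (hg : Measurable g) {T G : ℝ} (hT : 0 < T)
    (hu0 : ∀ᵐ o ∂ν, u o ∈ Icc 0 T) (hg0 : ∀ᵐ o ∂ν, g o ∈ Icc 0 G)
    (hcross : ∀ s t, 0 < s → s < t → t < T → 2 * (t - s) ≤ ∫ o in {o | u o ∈ Icc s t}, g o ∂ν) :
    (Real.pi / ν.real univ) ^ 2 * ∫ o, u o ^ 2 ∂ν ≤ ∫ o, g o ^ 2 ∂ν :=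
  n1_wirt ν hu hg hT hu0 hg0 hcross

/-- consequences of the crossing property for a one-dimensional `VS` -/
theorem n1_vs (hσ : 0 ≤ σ) (V : VS σ Λ 1 X Ω) (hM : 0 < V.M) (x : X) {T : ℝ} (hT : 0 < T)
    (hle : ∀ᵐ o ∂V.ν, n1u σ x (V.p o) ≤ T)
    (hcross : ∀ s t, 0 < s → s < t → t < T →
      2 * (t - s) ≤ ∫ o in {o | n1u σ x (V.p o) ∈ Icc s t}, n1g V x o ∂V.ν) :
    2 * Real.pi ≤ V.M * √(Λ ^ 2 - σ) ∧
      (σ = 0 → 0 < Λ → V.M * Λ ≤ 2 * Real.pi → Λ ^ 2 * ∫ o, kap σ x (V.p o) ∂V.ν ≤ V.M) := by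
  have hum : Measurable fun o => n1u σ x (V.p o) := (continuous_n1u σ x).measurable.comp V.meas_p
  obtain ⟨G, hG⟩ := n1g_bound hσ V x
  have hW := wirtinger_cross V.ν hum (measurable_n1g V x) hT
    (hle.mono fun o ho => ⟨n1u_nonneg hσ _ _, ho⟩) (Eventually.of_forall hG) hcross
  simp only [n1u_sq hσ] at hW
  rw [integral_const_mul] at hW
  set K := ∫ o, kap σ x (V.p o) ∂V.ν with hK
  set Y := ∫ o, n1g V x o ^ 2 ∂V.ν with hY
  have hK0 : 0 < K := by
    refine lt_of_le_of_ne (integral_nonneg fun o => kap_nonneg hσ _ _) fun h0 => ?_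
    have h1 := (integral_eq_zero_iff_of_nonneg (f := fun o => kap σ x (V.p o))
      (fun o => kap_nonneg hσ _ _) (n1_integrable_p V (lip_kap hσ x).continuous)).1 h0.symm
    have h2 : V.ν {o | n1u σ x (V.p o) ∈ Icc (T / 3) (2 * T / 3)} = 0 := by
      rw [measure_eq_zero_iff_ae_notMem]
      filter_upwards [h1] with o ho hc
      have h3 := n1u_sq hσ x (V.p o)
      have h4 : kap σ x (V.p o) = 0 := ho
      rw [h4, mul_zero] at h3
      have h5 : n1u σ x (V.p o) = 0 := pow_eq_zero_iff (two_ne_zero) |>.1 h3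
      linarith [hc.1]
    have h3 := hcross (T / 3) (2 * T / 3) (by linarith) (by linarith) (by linarith)
    rw [Measure.restrict_eq_zero.2 h2, integral_zero_measure] at h3
    linarith
  have hW' : (Real.pi / V.M) ^ 2 * (2 * K) ≤ Y := hW
  have h1 := n1_vs_ineq hσ V x one_pos
  rw [← hK, ← hY] at h1
  have h2 : (Real.pi / V.M) ^ 2 * 4 ≤ Λ ^ 2 - σ := by
    by_contra hc
    have := mul_lt_mul_of_pos_right (not_le.1 hc) hK0
    nlinarith
  refine ⟨?_, fun h0 hΛ hA => ?_⟩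
  · have h3 : 2 * Real.pi / V.M ≤ √(Λ ^ 2 - σ) :=
      Real.le_sqrt_of_sq_le (by rw [mul_div_assoc]; nlinarith)
    rwa [div_le_iff₀ hM, mul_comm _ V.M] at h3
  · have h3 : Λ / 2 ≤ Real.pi / V.M := by
      rw [div_le_div_iff₀ (by norm_num) hM]; linarith
    have h4 : (Λ / 2) ^ 2 * (2 * K) ≤ Y :=
      le_trans (mul_le_mul_of_nonneg_right (pow_le_pow_left₀ (by positivity) h3 2)
        (by positivity)) hW'
    have h5 : ∀ l > 1, Λ ^ 2 * K / 2 * ((l + 1) / l) ≤ V.M := fun l hl => by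
      have hl0 : 0 < l := by linarith
      have h6 := n1_vs_ineq hσ V x hl0
      rw [← hK, ← hY] at h6
      have hσK : σ * K = 0 := by simp [h0]
      rw [hσK] at h6
      have h7 : V.M ≤ l * (V.M - Λ ^ 2 * K / 2) + Λ ^ 2 * K / (2 * l) := by
        have : l * (V.M - Y) ≤ l * (V.M - Λ ^ 2 * K / 2) :=
          mul_le_mul_of_nonneg_left (by nlinarith) hl0.le
        simp only [zero_div, add_zero] at h6
        linarith
      have h8 : (l - 1) * (Λ ^ 2 * K / 2 * ((l + 1) / l))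
          = l * (Λ ^ 2 * K / 2) - Λ ^ 2 * K / (2 * l) := by field_simp; ring
      have h9 : (l - 1) * (Λ ^ 2 * K / 2 * ((l + 1) / l)) ≤ (l - 1) * V.M := by
        rw [h8]; linarith
      exact le_of_mul_le_mul_left h9 (by linarith)
    have hlim : Tendsto (fun l : ℝ => Λ ^ 2 * K / 2 * ((l + 1) / l)) (𝓝[>] 1)
        (𝓝 (Λ ^ 2 * K / 2 * ((1 + 1) / 1))) :=
      (ContinuousAt.tendsto (by fun_prop (disch := norm_num))).mono_left nhdsWithin_le_nhds
    have := le_of_tendsto hlim (eventually_nhdsWithin_of_forall h5)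
    linarith

theorem n1_point (hσ : 0 ≤ σ) (H : Hyp σ X) {P : ℝ → ℝ} {A : ℝ} {c : ℕ → Ch X 1}
    (h : NearMin P Λ A c) (V : VS σ Λ 1 X Ω) (hV : Conv c V) (x : X)
    (hx : ∀ ρ > 0, 0 < V.ν.real {o | dist (V.p o) x ≤ ρ}) :
    2 * Real.pi ≤ A * √(Λ ^ 2 - σ) ∧
      (σ = 0 → A * Λ ≤ 2 * Real.pi → Λ ^ 2 * ∫ o, kap σ x (V.p o) ∂V.ν ≤ A) := by
  have hu := lip_n1u σ x
  have hmass := n1_mass hV x hu (n1u_nonneg hσ x) (n1u_self σ x) hx
  obtain ⟨t₀, ht₀, hno⟩ := n1_nosmall (H.zero hσ) h x hu (dist_le_n1u hσ x) hmass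
  obtain ⟨φ, τ, T, a, hφ, hT, hτ, hcyc, ha, ha0, haA, hcr⟩ :=
    n1_trunc h.cyc h.area hu hmass ht₀ hno
  have h' := n1_nearmin (h.subseq hφ) hu hcyc ha ha0 haA
  obtain ⟨ψ, Ω', _, _, V', hψ, hV'⟩ := exists_lim hσ H 0 (fun h0 => absurd rfl h0) h'
  have harea := h'.area.comp hψ.tendsto_atTop
  have hM : V'.M = A - a := n1_M_eq hV' x harea
  have hle := n1_lim_le hV' x hu.continuous (hτ.comp hψ.tendsto_atTop) harea
    fun j => Ch.restr_in _ _
  obtain ⟨h1, h2⟩ := n1_vs hσ V' (by rw [hM]; linarith) x hT hle fun s t hs hst htT =>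
    n1_lim_cross hσ hV' x (fun j => hcyc _) hs hst
      (hψ.tendsto_atTop.eventually (hcr s t hs htT))
  rw [hM] at h1 h2
  refine ⟨h1.trans (mul_le_mul_of_nonneg_right (by linarith) (Real.sqrt_nonneg _)),
    fun h0 hA => ?_⟩
  have hΛ := h.Λ_pos
  have ha' : a = 0 := by
    rw [h0, sub_zero, Real.sqrt_sq hΛ.le] at h1
    nlinarith
  have h3 := h2 h0 hΛ (by rw [ha', sub_zero]; exact hA)
  rw [ha', sub_zero] at h3
  suffices h4 : ∫ o, kap σ x (V.p o) ∂V.ν ≤ ∫ o, kap σ x (V'.p o) ∂V'.ν from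
    le_trans (mul_le_mul_of_nonneg_left h4 (sq_nonneg _)) h3
  have hkc : Continuous (kap σ x) := (lip_kap hσ x).continuous
  obtain ⟨K, hK⟩ := (isCompact_range hkc).bddAbove
  have l1 := (n1_conv_pt hV x hkc).comp (hφ.comp hψ).tendsto_atTop
  have l2 := (n1_conv_pt hV' x hkc).add ((ha.comp hψ.tendsto_atTop).const_mul K)
  rw [ha', mul_zero, add_zero] at l2
  refine le_of_tendsto_of_tendsto' l1 l2 fun j => ?_
  simp only [Function.comp]
  set d := c (φ (ψ j))
  set t := τ (ψ j)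
  have hnm : NullMeasurableSet (d.pt ⁻¹' {y | n1u σ x y ≤ t}) d.par :=
    d.aemeasurable_pt.nullMeasurableSet_preimage (hu.measurableSet_le t)
  rw [← integral_add_compl₀ hnm (d.integrable_comp_pt hkc), Ch.par_restr, Ch.area_restr]
  refine add_le_add le_rfl ?_
  have := norm_setIntegral_le_of_norm_le_const (μ := d.par)
    (s := (d.pt ⁻¹' {y | n1u σ x y ≤ t})ᶜ) (f := fun w => kap σ x (d.pt w)) (C := K)
    (measure_lt_top _ _) fun w _ => by
      rw [Real.norm_of_nonneg (kap_nonneg hσ _ _)]; exact hK (mem_range_self _)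
  exact (le_abs_self _).trans this

theorem core_one (hσ : 0 ≤ σ) (H : Hyp σ X) {P : ℝ → ℝ} {A : ℝ} {c : ℕ → Ch X 1}
    (h : NearMin P Λ A c) (V : VS σ Λ 1 X Ω) (hV : Conv c V) : CoreConcl V := by
  have hM : V.M = A := n1_M_eq hV ((c 0).φ 0 0) h.area
  have hae : ∀ᵐ o ∂V.ν, ∀ ρ > 0, 0 < V.ν.real {o' | dist (V.p o') (V.p o) ≤ ρ} := by
    obtain ⟨ρ₀, hρ₀, hd⟩ := V.dens (1 / 2) (by norm_num)
    filter_upwards [hd] with o ho ρ hρ
    have h1 := ho (min ρ (ρ₀ / 2)) ⟨lt_min hρ (by linarith),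
      (min_le_right _ _).trans_lt (by linarith)⟩
    have h2 : 0 < (1 - 1 / 2) * om 1 * min ρ (ρ₀ / 2) ^ 1 :=
      mul_pos (mul_pos (by norm_num) (om_pos 1)) (pow_pos (lt_min hρ (by linarith)) _)
    exact (h2.trans_le h1).trans_le (measureReal_mono
      (fun o' (ho' : dist (V.p o') (V.p o) ≤ min ρ (ρ₀ / 2)) =>
        show dist (V.p o') (V.p o) ≤ ρ from ho'.trans (min_le_left _ _)) (measure_ne_top _ _))
  have hall := hae.mono fun o ho => n1_point hσ H h V hV (V.p o) ho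
  have hne : V.ν ≠ 0 := fun h0 => by
    have : V.M = 0 := by rw [VS.M, h0]; simp
    linarith [h.A_pos]
  have : (ae V.ν).NeBot := ae_neBot.2 hne
  have hΛ := h.Λ_pos
  unfold CoreConcl
  simp only [Nat.cast_one, div_one, pow_one, sph_one, hM]
  refine ⟨hall.exists.choose_spec.1, fun h0 hA => ?_⟩
  calc _ ≤ ∫ _, A * (1 / Λ) ^ 2 ∂V.ν := by
        refine integral_mono_of_nonneg (Eventually.of_forall fun o =>
          integral_nonneg fun o' => kap_nonneg hσ _ _) (integrable_const _) ?_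
        filter_upwards [hall] with o ho
        have h1 := ho.2 h0 hA
        rw [div_pow, one_pow, mul_one_div, le_div_iff₀ (by positivity), mul_comm]
        exact h1
    _ = _ := by
        rw [integral_const, smul_eq_mul]
        have : V.ν.real univ = A := hM
        rw [this]; ring

end Crest.Agent.R241
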