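import Crest.Agent.R241.Sum
import Crest.Agent.R241.NL.Psd

/-!
# (NL) normalisation of Lipschitz charts.  Helper prefix `nl_`.
-/

open MeasureTheory Set Filter Topology
open Crest.GeometryTopology.MetricCurrent
open Crest.GeometryTopology.Submanifold (Euc unitBallVol unitSphereArea)
open scoped ENNReal NNReal InnerProductSpace

noncomputable section

namespace Crest.Agent.R241

universe u

variable {X : Type u} [MetricSpace X] {k : ℕ}

/-- Take `B = (1+ε') √(AᵀA + ε' I)` (or avoid square roots with an orthonormal eigenbasis of the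
symmetric operator `A† A`, `LinearMap.IsSymmetric.eigenvectorBasis`; `B` diagonal composed with the
basis change). -/
theorem majJ_of_linear {F : Type*} [NormedAddCommGroup F] [InnerProductSpace ℝ F]
    {E : Set (Euc k)} {φ : Euc k → X} {z : Euc k} (A : Euc k →L[ℝ] F)
    (h : ∀ ε > 0, ∀ᶠ z' in 𝓝[E] z, dist (φ z') (φ z) ≤ ‖A (z' - z)‖ + ε * ‖z' - z‖) :
    MajJ E φ z √(Matrix.of fun a b =>
      ⟪A (EuclideanSpace.single a 1), A (EuclideanSpace.single b 1)⟫_ℝ).det := nl_linear A h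

/-- version with a positive semidefinite matrix -/
theorem majJ_of_psd {E : Set (Euc k)} {φ : Euc k → X} {z : Euc k} {G : Matrix (Fin k) (Fin k) ℝ}
    (hG : G.PosSemidef) (h : ∀ ε > 0, ∀ᶠ z' in 𝓝[E] z,
      dist (φ z') (φ z) ^ 2 ≤ ∑ a, ∑ b, G a b * (z' - z) a * (z' - z) b + ε * ‖z' - z‖ ^ 2) :
    MajJ E φ z √G.det := nl_psd hG h

theorem MajJ.mono {E : Set (Euc k)} {φ : Euc k → X} {z : Euc k} {J J' : ℝ} (h : MajJ E φ z J)
    (hJ : J ≤ J') : MajJ E φ z J' := fun δ hδ =>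
  let ⟨B, h1, h2⟩ := h δ hδ
  ⟨B, h1.trans (by linarith), h2⟩

theorem nl_det_ne (B : Euc k ≃L[ℝ] Euc k) : (B : Euc k →L[ℝ] Euc k).det ≠ 0 :=
  (LinearEquiv.isUnit_det' B.toLinearEquiv).ne_zero

theorem nl_dense (k : ℕ) : ∃ D : ℕ → (Euc k ≃L[ℝ] Euc k), ∀ (B : Euc k ≃L[ℝ] Euc k) (δ : ℝ), 0 < δ →
    ∃ n, |(D n : Euc k →L[ℝ] Euc k).det| ≤ |(B : Euc k →L[ℝ] Euc k).det| + δ ∧
      ∀ v, ‖B v‖ ≤ ‖D n v‖ := by
  classical
  obtain ⟨u, hu⟩ := TopologicalSpace.exists_dense_seq (Euc k →L[ℝ] Euc k)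
  refine ⟨fun n => if h : (u n).det ≠ 0 then (u n).toContinuousLinearEquivOfDetNeZero h
    else ContinuousLinearEquiv.refl ℝ _, fun B δ hδ => ?_⟩
  have hc : Continuous fun A : Euc k →L[ℝ] Euc k => A.det := ContinuousLinearMap.continuous_det
  have hU : IsOpen {A : Euc k →L[ℝ] Euc k |
      |A.det| < |(B : Euc k →L[ℝ] Euc k).det| + δ ∧ A.det ≠ 0} :=
    (isOpen_lt hc.abs continuous_const).inter (isOpen_ne_fun hc continuous_const)
  have h1 : ∀ᶠ t : ℝ in 𝓝 1, t • (B : Euc k →L[ℝ] Euc k) ∈ {A : Euc k →L[ℝ] Euc k |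
      |A.det| < |(B : Euc k →L[ℝ] Euc k).det| + δ ∧ A.det ≠ 0} := by
    have h2 : Continuous fun t : ℝ => t • (B : Euc k →L[ℝ] Euc k) := by fun_prop
    refine h2.continuousAt.eventually_mem (hU.mem_nhds ?_)
    rw [one_smul]
    exact ⟨by linarith, nl_det_ne B⟩
  obtain ⟨t, ht, ht1⟩ := ((h1.filter_mono (nhdsWithin_le_nhds (s := Ioi 1))).and
    self_mem_nhdsWithin).exists
  have ht1' : 0 < t - 1 := sub_pos.2 ht1
  set C : ℝ := ‖(B.symm : Euc k →L[ℝ] Euc k)‖ + 1 with hC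
  have hC0 : 0 < C := by positivity
  obtain ⟨n, ⟨hn1, hn2⟩, hn3⟩ := hu.exists_mem_open
    (hU.inter (Metric.isOpen_ball (x := t • (B : Euc k →L[ℝ] Euc k)) (ε := (t - 1) / C)))
    ⟨_, ht, Metric.mem_ball_self (div_pos ht1' hC0)⟩
  refine ⟨n, ?_, fun v => ?_⟩
  · simp only [dif_pos hn2, ContinuousLinearMap.coe_toContinuousLinearEquivOfDetNeZero]
    exact hn1.le
  · simp only [dif_pos hn2, ContinuousLinearMap.toContinuousLinearEquivOfDetNeZero_apply]
    rw [Metric.mem_ball, dist_eq_norm] at hn3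
    have h3 : ‖v‖ ≤ C * ‖B v‖ := by
      have := (B.symm : Euc k →L[ℝ] Euc k).le_opNorm (B v)
      rw [ContinuousLinearEquiv.coe_coe, B.symm_apply_apply] at this
      rw [hC]
      nlinarith [norm_nonneg (B v)]
    have h4 : ‖u n v - t • B v‖ ≤ (t - 1) / C * (C * ‖B v‖) :=
      ((u n - t • (B : Euc k →L[ℝ] Euc k)).le_opNorm v).trans
        (mul_le_mul hn3.le h3 (norm_nonneg _) (div_pos ht1' hC0).le)
    have h5 : ‖t • B v‖ ≤ ‖u n v‖ + ‖u n v - t • B v‖ := norm_le_insert _ _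
    rw [norm_smul, Real.norm_of_nonneg (by linarith)] at h5
    have h6 : (t - 1) / C * (C * ‖B v‖) = (t - 1) * ‖B v‖ := by field_simp
    nlinarith

theorem nl_pieces {E : Set (Euc k)} (hE : MeasurableSet E) {φ : Euc k → X} (hφ : ContinuousOn φ E)
    {θ : Euc k → ℤ} (hθ : Measurable θ) {J : Euc k → ℝ} (hJ : Measurable J) {δ : ℝ} (hδ : 0 < δ) :
    ∃ (P : ℕ → Set (Euc k)) (B : ℕ → (Euc k ≃L[ℝ] Euc k)) (l : ℕ → ℤ), (∀ i, MeasurableSet (P i)) ∧
      Pairwise (Function.onFun Disjoint P) ∧ (∀ i, P i ⊆ E) ∧ (∀ i, ∀ z ∈ P i, θ z = l i) ∧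
      (∀ i, ∀ z ∈ P i, |(B i : Euc k →L[ℝ] Euc k).det| ≤ J z + δ) ∧
      (∀ i, ∀ z ∈ P i, ∀ z' ∈ P i, dist (φ z') (φ z) ≤ ‖B i (z' - z)‖) ∧
      ∀ z ∈ E, MajJ E φ z (J z) → z ∈ ⋃ i, P i := by
  obtain ⟨D, hD⟩ := nl_dense k
  have hne : Nonempty (TopologicalSpace.countableBasis (Euc k)) := by
    obtain ⟨U, hU, -⟩ := (TopologicalSpace.isBasis_countableBasis (Euc k)).exists_subset_of_mem_open
      (mem_univ 0) isOpen_univ
    exact ⟨⟨U, hU⟩⟩
  obtain ⟨e, he⟩ := exists_surjective_nat (ℕ × TopologicalSpace.countableBasis (Euc k) × ℤ)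
  let Q : ℕ × TopologicalSpace.countableBasis (Euc k) × ℤ → Set (Euc k) := fun p =>
    (p.2.1.1 ∩ {z | θ z = p.2.2} ∩ {z | |(D p.1 : Euc k →L[ℝ] Euc k).det| ≤ J z + δ}) ∩
      {z | z ∈ E ∧ ∀ z' ∈ E ∩ p.2.1.1, dist (φ z') (φ z) ≤ ‖D p.1 (z' - z)‖}
  have hQ : ∀ p, MeasurableSet (Q p) := fun p => by
    refine (((TopologicalSpace.isOpen_of_mem_countableBasis p.2.1.2).measurableSet.inter
      (hθ (measurableSet_singleton p.2.2))).inter
      (measurableSet_le measurable_const (hJ.add_const δ))).inter ?_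
    have hc : Continuous fun z : E => φ z := hφ.domRestrict
    have h1 : IsClosed {z : E | ∀ z' ∈ E ∩ p.2.1.1, dist (φ z') (φ z) ≤ ‖D p.1 (z' - z)‖} := by
      simp only [ofPred_forall]
      exact isClosed_iInter fun z' => isClosed_iInter fun _ => 
        isClosed_le (continuous_const.dist hc) (by fun_prop)
    convert hE.subtype_image h1.measurableSet using 1
    ext z
    constructor
    · rintro ⟨h, h'⟩
      exact ⟨⟨z, h⟩, h', rfl⟩
    · rintro ⟨⟨z', h⟩, h', rfl⟩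
      exact ⟨h, h'⟩
  have hs : ∀ i, disjointed (fun i => Q (e i)) i ⊆ Q (e i) := disjointed_subset fun i => Q (e i)
  refine ⟨disjointed fun i => Q (e i), fun i => D (e i).1, fun i => (e i).2.2,
    MeasurableSet.disjointed fun i => hQ _, disjoint_disjointed _, fun i z hz => (hs i hz).2.1,
    fun i z hz => (hs i hz).1.1.2, fun i z hz => (hs i hz).1.2,
    fun i z hz z' hz' => (hs i hz).2.2 z' ⟨(hs i hz').2.1, (hs i hz').1.1.1⟩, fun z hz hm => ?_⟩
  rw [iUnion_disjointed]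
  obtain ⟨B, hB1, hB2⟩ := hm (δ / 2) (half_pos hδ)
  obtain ⟨n, hn1, hn2⟩ := hD B (δ / 2) (half_pos hδ)
  obtain ⟨V, hV, hzV, hVs⟩ := mem_nhdsWithin.1 hB2
  obtain ⟨U, hU, hzU, hUV⟩ :=
    (TopologicalSpace.isBasis_countableBasis (Euc k)).exists_subset_of_mem_open hzV hV
  obtain ⟨i, hi⟩ := he (n, ⟨U, hU⟩, θ z)
  refine mem_iUnion.2 ⟨i, ?_⟩
  rw [hi]
  exact ⟨⟨⟨hzU, rfl⟩, show _ ≤ J z + δ by linarith⟩, hz,
    fun z' hz' => (hVs ⟨hUV hz'.2, hz'.1⟩).trans (hn2 _)⟩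

theorem nl_lip {P : Set (Euc k)} {φ : Euc k → X} (B : Euc k ≃L[ℝ] Euc k)
    (h : ∀ z ∈ P, ∀ z' ∈ P, dist (φ z') (φ z) ≤ ‖B (z' - z)‖) :
    LipschitzOnWith 1 (fun w => φ (B.symm w)) (B '' P) := by
  refine LipschitzOnWith.of_dist_le_mul ?_
  rintro _ ⟨x, hx, rfl⟩ _ ⟨y, hy, rfl⟩
  rw [B.symm_apply_apply, B.symm_apply_apply, NNReal.coe_one, one_mul, dist_eq_norm (B x), ← map_sub]
  exact h y hy x hx

theorem nl_chart {E P : Set (Euc k)} (hE : MeasurableSet E) (hP : MeasurableSet P) (hPE : P ⊆ E)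
    {φ : Euc k → X} {L : ℝ≥0} (hφ : LipschitzOnWith L φ E) (B : Euc k ≃L[ℝ] Euc k)
    (h : ∀ z ∈ P, ∀ z' ∈ P, dist (φ z') (φ z) ≤ ‖B (z' - z)‖) (f : X → ℝ) {π : Fin k → X → ℝ}
    (hπ : ∀ a, Lip (π a)) :
    ∫ z in B '' P, f (φ (B.symm z)) * jacOn (B '' P) (fun w => φ (B.symm w)) π z =
      (SignType.sign (B : Euc k →L[ℝ] Euc k).det : ℝ) * ∫ z in P, f (φ z) * jacOn E φ π z := by
  choose K hK using hπ
  rw [jacOn_eq, integral_jacE_image (ψ := B) (g := fun a w => π a (φ (B.symm w))) hP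
    B.lipschitz.lipschitzOnWith B.injective.injOn
    (fun a => (hK a).comp_lipschitzOnWith (nl_lip B h)) fun z => f (φ (B.symm z)),
    ← integral_const_mul]
  refine integral_congr_ae ?_
  filter_upwards [ae_uniqueDiffWithinAt hP, ae_all_iff.2 fun a =>
    ae_fderivWithin_mono hE hP hPE ((hK a).comp_lipschitzOnWith hφ)] with z h1 h2
  have h3 : fderivWithin ℝ B P z = B := (B : Euc k →L[ℝ] Euc k).fderivWithin h1
  have h4 : ∀ a, fderivWithin ℝ (fun w => π a (φ w)) P z = fderivWithin ℝ (fun w => π a (φ w)) E z := h2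
  simp only [h3, B.symm_apply_apply, jacE, jacOn, h4]
  ring

theorem nl_integrable {E : Set (Euc k)} (hE : MeasurableSet E) {φ : Euc k → X} {L : ℝ≥0}
    (hφ : LipschitzOnWith L φ E) {θ : Euc k → ℝ} (hθ : IntegrableOn θ E) {f : X → ℝ}
    {π : Fin k → X → ℝ} (h : IsTestPair f π) :
    IntegrableOn (fun z => θ z * f (φ z) * jacOn E φ π z) E := by
  obtain ⟨⟨_, h1⟩, ⟨C, h2⟩, h3⟩ := h
  choose K hK using h3
  have hg : ∀ a, LipschitzOnWith (K a * L) (fun w => π a (φ w)) E := fun a =>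
    (hK a).comp_lipschitzOnWith hφ
  refine Integrable.mul_bdd (c := ∏ a, ((K a * L : ℝ≥0) : ℝ)) (Integrable.mul_bdd (c := C) hθ
    ((h1.continuous.comp_continuousOn hφ.continuousOn).aemeasurable hE).aestronglyMeasurable
    (Eventually.of_forall fun z => h2 _)) (aemeasurable_jacE hE hg).aestronglyMeasurable ?_
  exact ae_abs_jacE_le hE hg

/-- Recipe: fix a countable dense family of invertible `B`; with a constant `δ`, `δ ∫|θ| ≤ η`, the
sets `{z ∈ E | |det B| ≤ J z + δ, ∀ z' ∈ E ∩ ball z (1/m), dist (φ z') (φ z) ≤ ‖B (z' - z)‖}` are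
measurable (second condition relatively closed; replace `J` by a measurable modification) and
cover a.e.; intersect with small balls (diameter `< 1/m`) and with `{θ = l}`, disjointify; a piece
`P` gives `|l|` copies of the chart `φ ∘ B⁻¹` on `B '' P` with sign `sign l · sign det B`
(`integral_jacE_image`, `ae_fderivWithin_mono`, `exists_ch_of_family`). -/
theorem exists_ch_of_majJ {E : Set (Euc k)} (hE : MeasurableSet E) {φ : Euc k → X} {L : ℝ≥0}
    (hφ : LipschitzOnWith L φ E) {θ : Euc k → ℤ} (hθm : Measurable θ)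
    (hθ : IntegrableOn (fun z => (θ z : ℝ)) E) {J : Euc k → ℝ}
    (hJm : AEMeasurable J (volume.restrict E)) (hJ0 : ∀ z, 0 ≤ J z)
    (hJ : IntegrableOn (fun z => |(θ z : ℝ)| * J z) E)
    (hmaj : ∀ᵐ z ∂volume.restrict E, θ z ≠ 0 → MajJ E φ z (J z)) {η : ℝ} (hη : 0 < η) :
    ∃ c : Ch X k, (∀ f π, IsTestPair f π →
        c.act f π = ∫ z in E, (θ z : ℝ) * f (φ z) * jacOn E φ π z) ∧
      c.area ≤ (∫ z in E, |(θ z : ℝ)| * J z) + η ∧ c.In (φ '' (E ∩ {z | θ z ≠ 0})) := by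
  have : Nonempty X := ⟨φ 0⟩
  have hI0 : 0 ≤ ∫ z in E, |(θ z : ℝ)| := integral_nonneg fun _ => abs_nonneg _
  set δ : ℝ := η / ((∫ z in E, |(θ z : ℝ)|) + 1) with hδ
  have hδ0 : 0 < δ := by positivity
  have hδ1 : (∫ z in E, |(θ z : ℝ)|) * δ ≤ η := by
    rw [hδ, mul_div_assoc', div_le_iff₀ (by positivity)]
    nlinarith
  obtain ⟨P, B, l, hPm, hPd, hPE, hPθ, hPJ, hPL, hcov⟩ :=
    nl_pieces hE hφ.continuousOn hθm hJm.measurable_mk hδ0
  have hl : ∀ p : Σ i, Fin (l i).natAbs, l p.1 ≠ 0 := fun p h => by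
    have := p.2.pos
    rw [h] at this
    exact lt_irrefl _ this
  have hvol : ∑' p : Σ i, Fin (l i).natAbs, volume (B p.1 '' P p.1) ≤
      ENNReal.ofReal ((∫ z in E, |(θ z : ℝ)| * J z) + η) := by
    have hi : IntegrableOn (fun z => |(θ z : ℝ)| * J z + |(θ z : ℝ)| * δ) E :=
      hJ.add (hθ.abs.mul_const δ)
    calc ∑' p : Σ i, Fin (l i).natAbs, volume (B p.1 '' P p.1)
        = ∑' i, ∑' _ : Fin (l i).natAbs, volume (B i '' P i) :=
          ENNReal.tsum_sigma fun i (_ : Fin (l i).natAbs) => volume (B i '' P i)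
      _ ≤ ∑' i, ∫⁻ z in P i, ENNReal.ofReal (|(θ z : ℝ)| * hJm.mk J z + |(θ z : ℝ)| * δ) := by
          refine ENNReal.tsum_le_tsum fun i => ?_
          rw [tsum_fintype, Finset.sum_const, Finset.card_univ, Fintype.card_fin, nsmul_eq_mul,
            Measure.addHaar_image_continuousLinearEquiv, ← mul_assoc, ← setLIntegral_const]
          refine setLIntegral_mono' (hPm i) fun z hz => ?_
          rw [← ENNReal.ofReal_natCast, ← ENNReal.ofReal_mul (Nat.cast_nonneg _), ← mul_add, hPθ i z hz,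
            Nat.cast_natAbs, Int.cast_abs]
          exact ENNReal.ofReal_le_ofReal (mul_le_mul_of_nonneg_left (hPJ i z hz) (abs_nonneg _))
      _ = ∫⁻ z in ⋃ i, P i, ENNReal.ofReal (|(θ z : ℝ)| * hJm.mk J z + |(θ z : ℝ)| * δ) :=
          (lintegral_iUnion hPm hPd _).symm
      _ ≤ ∫⁻ z in E, ENNReal.ofReal (|(θ z : ℝ)| * hJm.mk J z + |(θ z : ℝ)| * δ) :=
          lintegral_mono_set (iUnion_subset hPE)
      _ = ∫⁻ z in E, ENNReal.ofReal (|(θ z : ℝ)| * J z + |(θ z : ℝ)| * δ) :=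
          lintegral_congr_ae (hJm.ae_eq_mk.mono fun z hz => by simp only [← hz])
      _ = ENNReal.ofReal (∫ z in E, (|(θ z : ℝ)| * J z + |(θ z : ℝ)| * δ)) :=
          (ofReal_integral_eq_lintegral_ofReal hi (Eventually.of_forall fun z =>
            add_nonneg (mul_nonneg (abs_nonneg _) (hJ0 z)) (mul_nonneg (abs_nonneg _) hδ0.le))).symm
      _ ≤ _ := by
          refine ENNReal.ofReal_le_ofReal ?_
          rw [integral_add hJ (hθ.abs.mul_const δ), integral_mul_const]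
          linarith
  obtain ⟨c, hc1, hc2, hc3, -⟩ := exists_ch_of_family (ι := Σ i, Fin (l i).natAbs)
    (fun p => B p.1 '' P p.1) (fun p w => φ ((B p.1).symm w))
    (fun p => (SignType.sign (l p.1 : ℝ) : ℝ) * (SignType.sign (B p.1 : Euc k →L[ℝ] Euc k).det : ℝ))
    (fun p => (B p.1).toHomeomorph.measurableEmbedding.measurableSet_image.2 (hPm p.1))
    (fun p => nl_lip _ (hPL p.1))
    (fun p => by
      rcases lt_or_gt_of_ne (Int.cast_ne_zero (α := ℝ).2 (hl p)) with h1 | h1 <;>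
        rcases lt_or_gt_of_ne (nl_det_ne (B p.1)) with h2 | h2 <;> simp [h1, h2])
    (ne_top_of_le_ne_top ENNReal.ofReal_ne_top hvol)
  refine ⟨c, fun f π hf => ?_, ?_, hc3 _ ?_⟩
  · have hi := nl_integrable hE hφ hθ hf
    have h1 := hasSum_integral_iUnion hPm hPd (hi.mono_set (iUnion_subset hPE))
    rw [setIntegral_eq_of_subset_of_ae_sdiff_eq_zero hE.nullMeasurableSet (iUnion_subset hPE)]
    · refine HasSum.unique ((hc2 f π hf).sigma fun i => ?_) h1
      have h2 : (SignType.sign (B i : Euc k →L[ℝ] Euc k).det : ℝ) *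
          (SignType.sign (B i : Euc k →L[ℝ] Euc k).det : ℝ) = 1 := by
        rcases lt_or_gt_of_ne (nl_det_ne (B i)) with h2 | h2 <;> simp [h2]
      refine Eq.subst (motive := fun a => HasSum _ a) (Eq.symm ?_) (hasSum_fintype _)
      rw [setIntegral_congr_fun (hPm i) (g := fun z => (l i : ℝ) * (f (φ z) * jacOn E φ π z))
        fun z hz => by simp only [hPθ i z hz, mul_assoc], integral_const_mul]
      simp only [nl_chart hE (hPm i) (hPE i) hφ (B i) (hPL i) f hf.2.2, Finset.sum_const,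
        Finset.card_univ, Fintype.card_fin, nsmul_eq_mul, Nat.cast_natAbs, Int.cast_abs]
      rw [mul_assoc (SignType.sign (l i : ℝ) : ℝ), ← mul_assoc _ _ (∫ z in P i, _), h2, one_mul,
        ← mul_assoc, abs_mul_sign]
    · filter_upwards [ae_imp_of_ae_restrict hmaj, ae_imp_of_ae_restrict hJm.ae_eq_mk] with z h2 h3 hz
      have h4 : θ z = 0 := by
        by_contra h5
        exact hz.2 (hcov z hz.1 (h3 hz.1 ▸ h2 hz.1 h5))
      simp [h4]
  · rw [hc1]
    exact ENNReal.toReal_le_of_le_ofReal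
      (add_nonneg (integral_nonneg fun z => mul_nonneg (abs_nonneg _) (hJ0 z)) hη.le) hvol
  · rintro p _ ⟨z, hz, rfl⟩
    refine ⟨z, ⟨hPE _ hz, ?_⟩, by simp only [ContinuousLinearEquiv.symm_apply_apply]⟩
    rw [mem_ofPred_eq, hPθ _ z hz]
    exact hl p

end Crest.Agent.R241
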